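import Vale.Agent.P167.H997.E1b

/-!
# P167, RSW for `q < 1`: the strip bound (E1)

`e1`: in the rectangle `[-n-1, 1] × [0, H]` with the lower side wired, the probability that the lower
side is joined to the height `K (n + 2)` is at most `1 / (K Q (1 - Q))`.
-/

set_option autoImplicit false
set_option linter.unusedSectionVars false

namespace Vale.Agent.P167.H997

open Finset Vale.Agent.P167.FK Vale.Agent.P167.H816 Vale.Agent.P167.H262
open Vale.Agent.P145.FB (PStep PConn)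
open Vale.Agent.P167.H947.Q (mem_fe mem_fo)
open Relation (ReflTransGen)

variable {Q : ℝ} {x0 x1 h H y : ℤ}

/-- The exterior relation. -/
theorem rel_bottom (hx : x0 < x1) {x z : ℤ × ℤ} (hxE : x ∈ Ev (Rsq x0 x1 0 H))
    (hzE : z ∈ Ev (Rsq x0 x1 0 H)) :
    PCs (cf (Rsq x0 x1 0 H) (sx x0 x1 H (Rsq x0 x1 (-1) 0)) ∅) x z ↔ wir (sdY 0 0 x0 x1) x z := by
  set ξ := cf (Rsq x0 x1 0 H) (sx x0 x1 H (Rsq x0 x1 (-1) 0)) ∅ with hξ
  have hval : ∀ v, v ∉ Rsq x0 x1 0 H → ξ v = sx x0 x1 H (Rsq x0 x1 (-1) 0) v :=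
    fun v hv => FKA.cf_out hv
  have hsea : ∀ v : ℤ × ℤ, ¬ (x0 - 1 ≤ v.1 ∧ v.1 ≤ x1 ∧ -1 ≤ v.2 ∧ v.2 ≤ H) → ξ v = true := by
    intro v hv
    rw [hval v fun h1 => hv (by have := mem_Rsq.1 h1; omega)]
    exact sx_true.2 (Or.inl hv)
  have hA : ∀ i, x0 ≤ i → i < x1 → ξ (i, -1) = true := by
    intro i h1 h2
    rw [hval _ fun h3 => by have := mem_Rsq.1 h3; simp only at this; omega]
    exact sx_true.2 (Or.inr (mem_Rsq.2 (by simp only; omega)))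
  have g2 : ∀ x ∈ Ev (Rsq x0 x1 0 H), ∀ t, PC ξ x t → x ≠ t → x ∈ sdY 0 0 x0 x1 := by
    intro x hx t hxt hne
    obtain ⟨c, hc, m1, m2, m3⟩ := mem_Ev_iff.1 hx
    have hc' := mem_Rsq.1 hc
    obtain ⟨b, hb, hb'⟩ := first_step (Int.even_iff.2 m1) hxt hne
    have hbD := cf_true_out hb
    rw [hval b hbD, sx_true] at hb
    obtain ⟨k1, k2, k3⟩ := co_iff.1 hb'
    rcases hb with hb | hb
    · exfalso
      omega
    · have h1 := mem_Rsq.1 hb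
      exact ⟨by omega, by omega, by omega, k1⟩
  rw [PCs_iff (even_Ev hxE)]
  constructor
  · intro h1
    by_cases hne : x = z
    · exact Or.inl hne
    · exact Or.inr ⟨g2 x hxE z h1 hne, g2 z hzE x (PC_symm h1) (Ne.symm hne)⟩
  · rintro (h1 | ⟨h1, h2⟩)
    · rw [h1]; exact ReflTransGen.refl
    · obtain ⟨u, hu, h3⟩ := bot_sea hx hA h1
      obtain ⟨v, hv, h4⟩ := bot_sea hx hA h2
      exact (h3.trans (sea_conn hsea (PC_even h3 (even_Ev hxE)) (PC_even h4 (even_Ev hzE))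
        (Or.inr (Or.inr (Or.inl hu))) (Or.inr (Or.inr (Or.inl hv))))).trans (PC_symm h4)

/-- A connection to the height `h` gives no dual crossing. -/
theorem mm_le_Ac (hQ : 0 < Q) (hx : x0 < x1) (hh0 : 0 < h) :
    mm pa pb (fun _ => Q) (Q ^ 2) (Rsq x0 x1 0 H) (sdY 0 0 x0 x1) (sdY 0 0 x0 x1) {t | h ≤ t.2} ≤
      Pr Q (Rsq x0 x1 0 H) (sx x0 x1 H (Rsq x0 x1 (-1) 0)) (Ac x0 x1 h) := by
  rw [Pr_eq_GP hQ good_sx, mm]
  have e1 := GP_congr pa pb (Rsq x0 x1 0 H) (w := fun _ => Q) (pow_pos hQ 2)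
    (r := PCs (cf (Rsq x0 x1 0 H) (sx x0 x1 H (Rsq x0 x1 (-1) 0)) ∅))
    (r' := wir (sdY 0 0 x0 x1))
    (fun x hx' z hz => rel_bottom hx (mem_ends_iff.1 hx') (mem_ends_iff.1 hz))
    (A := fun S => cf (Rsq x0 x1 0 H) (sx x0 x1 H (Rsq x0 x1 (-1) 0)) S ∈ Ac x0 x1 h)
    (A' := fun S => cf (Rsq x0 x1 0 H) (sx x0 x1 H (Rsq x0 x1 (-1) 0)) S ∈ Ac x0 x1 h)
    (fun _ _ => Iff.rfl)
  rw [e1]
  refine GP_mono pa pb _ (fun _ => hQ.le) (pow_pos hQ 2) fun S hS hsep => ?_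
  unfold H816.Sep at hsep
  push Not at hsep
  obtain ⟨z, hz, t, ht, hc⟩ := hsep
  set ω := cf (Rsq x0 x1 0 H) (sx x0 x1 H (Rsq x0 x1 (-1) 0)) S with hω
  have ht' : h ≤ t.2 := ht
  intro l hl hlK
  obtain ⟨r, hr, hrl⟩ := hlK
  have hno : ¬ ∃ x ∈ sdY 0 0 x0 x1, ∃ y ∈ sdY 0 h x0 x1,
      con pa pb ⊥ (Sf (Rsq x0 x1 0 h) ω) x y := by
    rw [quad_BT (x0 := x0) (x1 := x1) (y0 := 0) (y1 := h) hx.le hh0.le _ Sf_subset, not_not]
    exact ⟨r, hr, l, hl, hrl⟩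
  set T := Sf (Rsq x0 x1 0 h) ω with hT
  have step : ∀ e ∈ S, ∀ x x', (x = pa e ∨ x = pb e) → (x' = pa e ∨ x' = pb e) →
      (con pa pb ⊥ T z x ∧ x.2 < h) → (con pa pb ⊥ T z x' ∧ x'.2 < h) := by
    rintro e he x x' hxe hxe' ⟨h1, h2⟩
    have heD := mem_Rsq.1 (hS he)
    obtain ⟨k1, k2, k3⟩ := co_iff.1 hxe
    obtain ⟨m1, m2, m3⟩ := co_iff.1 hxe'
    have heT : e ∈ T := by
      rw [hT, mem_Sf, mem_Rsq]
      refine ⟨by omega, ?_⟩
      simp [hω, cf, hS he, he]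
    have h3 : con pa pb ⊥ T z x' := by
      have h4 : con pa pb ⊥ T (pa e) (pb e) := con_edge pa pb ⊥ heT
      rcases hxe with rfl | rfl <;> rcases hxe' with rfl | rfl
      · exact h1
      · exact (con pa pb ⊥ T).trans h1 h4
      · exact (con pa pb ⊥ T).trans h1 ((con pa pb ⊥ T).symm h4)
      · exact h1
    refine ⟨h3, ?_⟩
    by_contra h5
    exact hno ⟨z, hz, x', ⟨by omega, by omega, by omega, m1⟩, h3⟩
  have key := (con_induct (fun x => con pa pb ⊥ T z x ∧ x.2 < h) (fun e he =>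
    ⟨step e he _ _ (Or.inl rfl) (Or.inr rfl), step e he _ _ (Or.inr rfl) (Or.inl rfl)⟩) hc).1
    ⟨(con pa pb ⊥ T).refl z, by have := hz.1; omega⟩
  omega

variable {n : ℤ}

/-- One site of the window. -/
theorem win_site (hQ : 0 < Q) (hQ1 : Q ≤ 1) (hn : n % 2 = 0) (hn0 : 0 ≤ n) (hh : h ≤ H)
    (hh2 : h % 2 = 0) (hy : y % 2 = 1) (hy1 : h - (n + 2) < y) (hy2 : y < h) (hM : n + 2 ≤ h) :
    pr Q n (n + 2) (1 - (h - y), n + 2) *
        Pr Q (Rsq (-n - 1) 1 0 H) (sx (-n - 1) 1 H (Rsq (-n - 1) 1 (-1) 0)) (Ac (-n - 1) 1 h) ≤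
      pr Q n H (-n - 1, y) := by
  have h1 := explore hQ hQ1 (x0 := -n - 1) (x1 := 1) (by omega) hh (y := y) (by omega) (by omega)
    (by omega) (W0 := sdX 0 1 (h - (n + 2)) h) (by
      rintro s ⟨k1, k2, k3, k4⟩
      exact ⟨k1, by omega, k3, k4⟩)
  refine le_trans (mul_le_mul_of_nonneg_right ?_ (FKA.Pr_nonneg hQ _)) h1
  -- reflection
  have e1 : mm pa pb (fun _ => Q) (Q ^ 2) (Rsq (-n - 1) 1 0 h) (sdX 0 1 (h - (n + 2)) h)
      (sdX 0 1 (h - (n + 2)) h) {(-n - 1, y)} =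
      mm pa pb (fun _ => Q) (Q ^ 2) (Rsq (-n - 1) 1 0 h) (sdX 0 1 0 (n + 2)) (sdX 0 1 0 (n + 2))
        {(-n - 1, h - y)} := by
    refine mm_PP (σ := ry h) (τ := ry (h - 1)) hQ (sy_ry h) (by omega) ?_ ?_ ?_ ?_
    · intro b
      simp only [ry, Equiv.coe_fn_mk, mem_Rsq]
      omega
    · intro x
      simp only [ry, Equiv.coe_fn_mk, sdX, Set.mem_ofPred_eq]
      omega
    · intro x
      simp only [ry, Equiv.coe_fn_mk, sdX, Set.mem_ofPred_eq]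
      omega
    · rintro ⟨a, b⟩
      simp only [ry, Equiv.coe_fn_mk, Set.mem_singleton_iff, Prod.mk.injEq]
      omega
  have e2 : pr Q n (n + 2) (1 - (h - y), n + 2) =
      mm pa pb (fun _ => Q) (Q ^ 2) (Rsq (-n - 1) 1 0 (n + 2)) (sdX 0 1 0 (n + 2))
        (sdX 0 1 0 (n + 2)) {(-n - 1, h - y)} := by
    refine mm_PP (σ := aw 1 1) (τ := aw (1 - 1) (1 - 1)) hQ (sy_aw 1 1) (by omega) ?_ ?_ ?_ ?_
    · intro b
      simp only [aw, Equiv.coe_fn_mk, mem_Rsq, mem_Rn]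
      omega
    · intro x
      simp only [aw, Equiv.coe_fn_mk, sdX, Bn, sdY, Set.mem_ofPred_eq]
      omega
    · intro x
      simp only [aw, Equiv.coe_fn_mk, sdX, Bn, sdY, Set.mem_ofPred_eq]
      omega
    · rintro ⟨a, b⟩
      simp only [aw, Equiv.coe_fn_mk, Set.mem_singleton_iff, Prod.mk.injEq]
      omega
  rw [e1, e2]
  exact grow_win hQ hQ1 (by omega) hM (by omega) (by omega) (by omega)

/-- The window. -/
theorem window (hQ : 0 < Q) (hQ1 : Q ≤ 1) (hn : n % 2 = 0) (hn0 : 0 ≤ n) (hh : h ≤ H)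
    (hh2 : h % 2 = 0) (hM : n + 2 ≤ h) :
    Tp Q n (n + 2) *
        Pr Q (Rsq (-n - 1) 1 0 H) (sx (-n - 1) 1 H (Rsq (-n - 1) 1 (-1) 0)) (Ac (-n - 1) 1 h) ≤
      ∑ y ∈ (Finset.Ioo (h - (n + 2)) h).filter (fun y => Odd y), pr Q n H (-n - 1, y) := by
  have e : Tp Q n (n + 2) = ∑ y ∈ (Finset.Ioo (h - (n + 2)) h).filter (fun y => Odd y),
      pr Q n (n + 2) (1 - (h - y), n + 2) := by
    symm
    refine sum_nbij' (fun y => 1 - (h - y)) (fun x => x - 1 + h) ?_ ?_ ?_ ?_ ?_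
    · intro y hy
      rw [mem_fo] at hy
      rw [mem_fe]
      omega
    · intro x hx
      rw [mem_fe] at hx
      rw [mem_fo]
      omega
    · intro y _
      ring
    · intro x _
      ring
    · intro y _
      rfl
  rw [e, sum_mul]
  refine sum_le_sum fun y hy => ?_
  rw [mem_fo] at hy
  exact win_site hQ hQ1 hn hn0 hh hh2 hy.2.2 hy.1 hy.2.1 hM

/-- The sum of the windows. -/
theorem windows (hQ : 0 < Q) (hQ1 : Q ≤ 1) (hn : n % 2 = 0) (hn0 : 0 ≤ n) {K0 : ℤ}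
    (hKH : K0 * (n + 2) ≤ H) : ∀ K : ℕ, (K : ℤ) ≤ K0 →
    (K : ℝ) * (Tp Q n (n + 2) * Pr Q (Rsq (-n - 1) 1 0 H)
        (sx (-n - 1) 1 H (Rsq (-n - 1) 1 (-1) 0)) (Ac (-n - 1) 1 (K0 * (n + 2)))) ≤
      ∑ y ∈ (Finset.Ioo 0 ((K : ℤ) * (n + 2))).filter (fun y => Odd y), pr Q n H (-n - 1, y) := by
  intro K
  induction K with
  | zero =>
    intro _
    rw [Nat.cast_zero, zero_mul]
    exact sum_nonneg fun _ _ => pr_nonneg hQ _
  | succ K ih =>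
    intro hK
    have hK' : ((K : ℤ) + 1) ≤ K0 := by push_cast at hK; exact hK
    have h1 := ih (by omega)
    have hle : ((K : ℤ) + 1) * (n + 2) ≤ K0 * (n + 2) :=
      mul_le_mul_of_nonneg_right hK' (by omega)
    have hM : n + 2 ≤ ((K : ℤ) + 1) * (n + 2) := by nlinarith
    have hpar : (((K : ℤ) + 1) * (n + 2)) % 2 = 0 := by
      rw [Int.mul_emod, show (n + 2) % 2 = 0 by omega]
      simp
    have h2 := window hQ hQ1 hn hn0 (H := H) (hle.trans hKH) hpar hM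
    have h3 : Tp Q n (n + 2) * Pr Q (Rsq (-n - 1) 1 0 H)
        (sx (-n - 1) 1 H (Rsq (-n - 1) 1 (-1) 0)) (Ac (-n - 1) 1 (K0 * (n + 2))) ≤
        Tp Q n (n + 2) * Pr Q (Rsq (-n - 1) 1 0 H)
        (sx (-n - 1) 1 H (Rsq (-n - 1) 1 (-1) 0)) (Ac (-n - 1) 1 (((K : ℤ) + 1) * (n + 2))) :=
      mul_le_mul_of_nonneg_left (FKA.Pr_mono hQ (Ac_anti hle)) (Tp_nonneg hQ)
    have e0 : ((K : ℤ) + 1) * (n + 2) - (n + 2) = (K : ℤ) * (n + 2) := by ring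
    rw [e0] at h2
    have hsub : (Finset.Ioo 0 ((K : ℤ) * (n + 2))).filter (fun y => Odd y) ∪
        (Finset.Ioo ((K : ℤ) * (n + 2)) (((K : ℤ) + 1) * (n + 2))).filter (fun y => Odd y) ⊆
        (Finset.Ioo 0 (((K : ℤ) + 1) * (n + 2))).filter (fun y => Odd y) := by
      have h4 : 0 ≤ (K : ℤ) * (n + 2) := by positivity
      have h5 : ((K : ℤ) + 1) * (n + 2) = (K : ℤ) * (n + 2) + (n + 2) := by ring
      intro z hz
      rw [mem_union, mem_fo, mem_fo] at hz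
      rw [mem_fo]
      omega
    have hdis : Disjoint ((Finset.Ioo 0 ((K : ℤ) * (n + 2))).filter (fun y => Odd y))
        ((Finset.Ioo ((K : ℤ) * (n + 2)) (((K : ℤ) + 1) * (n + 2))).filter (fun y => Odd y)) := by
      rw [disjoint_left]
      intro z hz hz'
      rw [mem_fo] at hz hz'
      omega
    have h6 := sum_le_sum_of_subset_of_nonneg (f := fun y => pr Q n H (-n - 1, y)) hsub
      (fun _ _ _ => pr_nonneg hQ _)
    rw [sum_union hdis] at h6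
    push_cast
    linarith

/-- **The strip bound (E1).** -/
theorem e1_Ac (hQ : 0 < Q) (hQ1 : Q < 1) (hn : n % 2 = 0) (hn0 : 0 ≤ n) {K : ℤ} (hK : 1 ≤ K)
    (hKH : K * (n + 2) ≤ H) :
    Pr Q (Rsq (-n - 1) 1 0 H) (sx (-n - 1) 1 H (Rsq (-n - 1) 1 (-1) 0))
      (Ac (-n - 1) 1 (K * (n + 2))) ≤ 1 / (Q * (1 - Q)) / K := by
  have hM : n + 2 ≤ K * (n + 2) := by nlinarith
  set P := Pr Q (Rsq (-n - 1) 1 0 H) (sx (-n - 1) 1 H (Rsq (-n - 1) 1 (-1) 0))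
      (Ac (-n - 1) 1 (K * (n + 2))) with hP
  obtain ⟨H', hH', hHH, hH2⟩ : ∃ H', H ≤ H' ∧ H' % 2 = 0 ∧ 0 < H' :=
    ⟨H + H % 2, by omega, by omega, by omega⟩
  obtain ⟨k, rfl⟩ := Int.eq_ofNat_of_zero_le (by omega : 0 ≤ K)
  have h1 := windows hQ hQ1.le hn hn0 hKH k le_rfl
  rw [← hP] at h1
  have h2 : ∑ y ∈ (Finset.Ioo 0 ((k : ℤ) * (n + 2))).filter (fun y => Odd y),
      pr Q n H (-n - 1, y) ≤ Sl Q n H' := by
    refine le_trans (sum_le_sum (g := fun y => pr Q n H' (-n - 1, y)) fun y hy => ?_)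
      (sum_le_sum_of_subset_of_nonneg (fun y hy => ?_) fun _ _ _ => pr_nonneg hQ _)
    · rw [mem_fo] at hy
      exact grow_top hQ hQ1.le (by omega) hH' (by omega) (by omega) (by omega)
    · rw [mem_fo] at hy ⊢
      omega
  have h3 := pf_mm hQ (by linarith) hn hn0 hHH hH2
  have h4 := Lm_anti (n := n) hQ hQ1.le (show n + 2 ≤ H' by omega) (by omega)
  have h5 := Lm_le hQ hQ1.le hn hn0
  have h6 := Tp_nonneg (Q := Q) (n := n) (H := H') hQ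
  have h7 := Lm_nonneg (Q := Q) (n := n) (H := n + 2) hQ
  set ρ := Tp Q n (n + 2) with hρ
  have hρ0 : 0 < ρ := by nlinarith
  have h8 : Q * Sl Q n H' ≤ 1 + Lm Q n (n + 2) := by linarith
  have h9 : (1 - Q) * (Q * Sl Q n H') ≤ ρ :=
    (mul_le_mul_of_nonneg_left h8 (by linarith)).trans h5
  have h10 : (1 - Q) * (Q * ((k : ℝ) * (ρ * P))) ≤ ρ := by
    refine le_trans ?_ h9
    exact mul_le_mul_of_nonneg_left (mul_le_mul_of_nonneg_left (h1.trans h2) hQ.le) (by linarith)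
  have hk : (0 : ℝ) < k := by
    have : (0 : ℤ) < k := by omega
    exact_mod_cast this
  have h11 : Q * (1 - Q) * k * P ≤ 1 := by
    have h12 : ρ * (Q * (1 - Q) * k * P) ≤ ρ * 1 := by
      calc ρ * (Q * (1 - Q) * k * P) = (1 - Q) * (Q * ((k : ℝ) * (ρ * P))) := by ring
        _ ≤ ρ := h10
        _ = ρ * 1 := (mul_one ρ).symm
    exact le_of_mul_le_mul_left h12 hρ0
  have hq : 0 < Q * (1 - Q) := mul_pos hQ (by linarith)
  have e : ((k : ℤ) : ℝ) = (k : ℝ) := by norm_cast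
  rw [e, div_div, le_div_iff₀ (mul_pos hq hk)]
  linarith

/-- **The strip bound (E1).** -/
theorem e1 (hQ : 0 < Q) (hQ1 : Q < 1) (hn : n % 2 = 0) (hn0 : 0 ≤ n) {K : ℤ} (hK : 1 ≤ K)
    (hKH : K * (n + 2) ≤ H) :
    mm pa pb (fun _ => Q) (Q ^ 2) (Rsq (-n - 1) 1 0 H) (sdY 0 0 (-n - 1) 1) (sdY 0 0 (-n - 1) 1)
      {t | K * (n + 2) ≤ t.2} ≤ 1 / (Q * (1 - Q)) / K :=
  (mm_le_Ac hQ (by omega) (by nlinarith)).trans (e1_Ac hQ hQ1 hn hn0 hK hKH)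

end Vale.Agent.P167.H997
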