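import Vale.Agent.P167.H997.Exp

/-!
# P167, RSW for `q < 1`: rectangles

The squares around a site, the contact sites in a rectangle (`around`), planar duality of rectangles in
terms of `con` (`quad_BT`, `quad_LR`).
-/

set_option autoImplicit false
set_option linter.unusedSectionVars false

namespace Vale.Agent.P167.H997

open Finset Vale.Agent.P167.FK Vale.Agent.P167.H816 Vale.Agent.P167.H262
open Vale.Agent.P145.FB (PStep PConn)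
open Vale.Agent.P167.H623 (join sup_join conf)
open Relation (ReflTransGen)

/-! ### The corners -/

theorem corners_even (x y : ℤ) (h : (x + y) % 2 = 0) :
    pa (x, y) = (x, y) ∧ pb (x, y) = (x + 1, y + 1) ∧ da (x, y) = (x, y + 1) ∧
      db (x, y) = (x + 1, y) := by
  have h' : Even (x + y) := Int.even_iff.2 h
  simp [pa, pb, da, db, h']

theorem corners_odd (x y : ℤ) (h : (x + y) % 2 = 1) :
    pa (x, y) = (x, y + 1) ∧ pb (x, y) = (x + 1, y) ∧ da (x, y) = (x, y) ∧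
      db (x, y) = (x + 1, y + 1) := by
  have h' : ¬ Even (x + y) := by rw [Int.even_iff]; omega
  simp [pa, pb, da, db, h']

/-- The even corners of a square in terms of coordinates. -/
theorem co_iff {s b : ℤ × ℤ} : (s = pa b ∨ s = pb b) ↔ (s.1 + s.2) % 2 = 0 ∧
    (s.1 = b.1 ∨ s.1 = b.1 + 1) ∧ (s.2 = b.2 ∨ s.2 = b.2 + 1) := by
  obtain ⟨x, y⟩ := s
  obtain ⟨p, q⟩ := b
  rcases (by omega : (p + q) % 2 = 0 ∨ (p + q) % 2 = 1) with h | h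
  · obtain ⟨h1, h2, -, -⟩ := corners_even p q h
    rw [h1, h2, Prod.mk.injEq, Prod.mk.injEq]
    simp only
    omega
  · obtain ⟨h1, h2, -, -⟩ := corners_odd p q h
    rw [h1, h2, Prod.mk.injEq, Prod.mk.injEq]
    simp only
    omega

/-- The odd corners of a square in terms of coordinates. -/
theorem do_iff {s b : ℤ × ℤ} : (s = da b ∨ s = db b) ↔ (s.1 + s.2) % 2 = 1 ∧
    (s.1 = b.1 ∨ s.1 = b.1 + 1) ∧ (s.2 = b.2 ∨ s.2 = b.2 + 1) := by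
  obtain ⟨x, y⟩ := s
  obtain ⟨p, q⟩ := b
  rcases (by omega : (p + q) % 2 = 0 ∨ (p + q) % 2 = 1) with h | h
  · obtain ⟨-, -, h1, h2⟩ := corners_even p q h
    rw [h1, h2, Prod.mk.injEq, Prod.mk.injEq]
    simp only
    omega
  · obtain ⟨-, -, h1, h2⟩ := corners_odd p q h
    rw [h1, h2, Prod.mk.injEq, Prod.mk.injEq]
    simp only
    omega

theorem mem_Ev_iff {D : Finset (ℤ × ℤ)} {s : ℤ × ℤ} : s ∈ Ev D ↔ ∃ b ∈ D, (s.1 + s.2) % 2 = 0 ∧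
    (s.1 = b.1 ∨ s.1 = b.1 + 1) ∧ (s.2 = b.2 ∨ s.2 = b.2 + 1) := by
  constructor
  · rintro ⟨b, hb, h⟩
    exact ⟨b, hb, co_iff.1 h⟩
  · rintro ⟨b, hb, h⟩
    exact ⟨b, hb, co_iff.2 h⟩

theorem mem_Od_iff {D : Finset (ℤ × ℤ)} {s : ℤ × ℤ} : s ∈ Od D ↔ ∃ b ∈ D, (s.1 + s.2) % 2 = 1 ∧
    (s.1 = b.1 ∨ s.1 = b.1 + 1) ∧ (s.2 = b.2 ∨ s.2 = b.2 + 1) := by
  constructor
  · rintro ⟨b, hb, h⟩
    exact ⟨b, hb, do_iff.1 h⟩
  · rintro ⟨b, hb, h⟩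
    exact ⟨b, hb, do_iff.2 h⟩

/-! ### Contact sites -/

section around

variable {f g : ℤ × ℤ → ℤ × ℤ} {D U : Finset (ℤ × ℤ)} {K N : Set (ℤ × ℤ)} {B : ℤ × ℤ → Prop}

/-- Two adjacent squares around a site: common neighbour `n`. -/
theorem adj_contact {c c' m n k : ℤ × ℤ}
    (hc : (f c = m ∧ g c = n) ∨ (f c = n ∧ g c = m))
    (hc' : (f c' = n ∧ g c' = k) ∨ (f c' = k ∧ g c' = n)) (hcU : c ∈ U) (hc'D : c' ∈ D)
    (hc'U : c' ∉ U) (hUN : ∀ c ∈ U, f c ∈ N ∧ g c ∈ N)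
    (hNU : ∀ c ∈ D, f c ∈ N → g c ∈ N → c ∈ U)
    (hNK : ∀ c ∈ D, (f c ∈ N → g c ∉ K → g c ∈ N) ∧ (g c ∈ N → f c ∉ K → f c ∈ N)) :
    (f c' ∈ K ∧ g c' ∈ N) ∨ (g c' ∈ K ∧ f c' ∈ N) := by
  have hn : n ∈ N := by
    rcases hc with ⟨-, h⟩ | ⟨h, -⟩
    · rw [← h]; exact (hUN c hcU).2
    · rw [← h]; exact (hUN c hcU).1
  rcases hc' with ⟨h1, h2⟩ | ⟨h1, h2⟩
  · right
    rw [h1]
    refine ⟨?_, hn⟩
    by_contra h3
    refine hc'U (hNU c' hc'D (by rw [h1]; exact hn) ((hNK c' hc'D).1 (by rw [h1]; exact hn) h3))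
  · left
    rw [h2]
    refine ⟨?_, hn⟩
    by_contra h3
    refine hc'U (hNU c' hc'D ((hNK c' hc'D).2 (by rw [h2]; exact hn) h3) (by rw [h2]; exact hn))

/-- The squares around a site: a square of `U` and a square of `D \ U` give a boundary square. -/
theorem around {p0 p1 q0 q1 : ℤ} {s : ℤ × ℤ}
    (hfg : ∀ p q : ℤ, (s.1 = p ∨ s.1 = p + 1) → (s.2 = q ∨ s.2 = q + 1) →
      ∀ z : ℤ × ℤ, (z = f (p, q) ∨ z = g (p, q)) ↔ (z.1 + z.2 + s.1 + s.2) % 2 = 1 ∧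
        (z.1 = p ∨ z.1 = p + 1) ∧ (z.2 = q ∨ z.2 = q + 1))
    (hUN : ∀ c ∈ U, f c ∈ N ∧ g c ∈ N)
    (hNU : ∀ c ∈ Rsq p0 p1 q0 q1, f c ∈ N → g c ∈ N → c ∈ U)
    (hNK : ∀ c ∈ Rsq p0 p1 q0 q1,
      (f c ∈ N → g c ∉ K → g c ∈ N) ∧ (g c ∈ N → f c ∉ K → f c ∈ N))
    {b b' : ℤ × ℤ} (hb : b ∈ U) (hbD : b ∈ Rsq p0 p1 q0 q1) (hb' : b' ∈ Rsq p0 p1 q0 q1)
    (hb'U : b' ∉ U) (h1 : (s.1 = b.1 ∨ s.1 = b.1 + 1) ∧ (s.2 = b.2 ∨ s.2 = b.2 + 1))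
    (h2 : (s.1 = b'.1 ∨ s.1 = b'.1 + 1) ∧ (s.2 = b'.2 ∨ s.2 = b'.2 + 1)) :
    ∃ e ∈ Rsq p0 p1 q0 q1, ((s.1 = e.1 ∨ s.1 = e.1 + 1) ∧ (s.2 = e.2 ∨ s.2 = e.2 + 1)) ∧
      ((f e ∈ K ∧ g e ∈ N) ∨ (g e ∈ K ∧ f e ∈ N)) := by
  -- the pair of corners
  have pair : ∀ p q : ℤ, (s.1 = p ∨ s.1 = p + 1) → (s.2 = q ∨ s.2 = q + 1) → ∀ m n : ℤ × ℤ, m ≠ n →
      ((m.1 + m.2 + s.1 + s.2) % 2 = 1 ∧ (m.1 = p ∨ m.1 = p + 1) ∧ (m.2 = q ∨ m.2 = q + 1)) →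
      ((n.1 + n.2 + s.1 + s.2) % 2 = 1 ∧ (n.1 = p ∨ n.1 = p + 1) ∧ (n.2 = q ∨ n.2 = q + 1)) →
      ((f (p, q) = m ∧ g (p, q) = n) ∨ (f (p, q) = n ∧ g (p, q) = m)) := by
    intro p q hp hq m n hmn hm hn
    have e1 := (hfg p q hp hq m).2 hm
    have e2 := (hfg p q hp hq n).2 hn
    rcases e1 with e1 | e1 <;> rcases e2 with e2 | e2
    · exact absurd (e1.trans e2.symm) hmn
    · exact Or.inl ⟨e1.symm, e2.symm⟩
    · exact Or.inr ⟨e2.symm, e1.symm⟩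
    · exact absurd (e1.trans e2.symm) hmn
  -- adjacent squares
  have adj : ∀ p q p' q' : ℤ, (s.1 = p ∨ s.1 = p + 1) → (s.2 = q ∨ s.2 = q + 1) →
      (s.1 = p' ∨ s.1 = p' + 1) → (s.2 = q' ∨ s.2 = q' + 1) →
      ((p = p' ∧ q ≠ q') ∨ (p ≠ p' ∧ q = q')) → (p, q) ∈ U → (p', q') ∈ Rsq p0 p1 q0 q1 →
      (p', q') ∉ U → ((f (p', q') ∈ K ∧ g (p', q') ∈ N) ∨ (g (p', q') ∈ K ∧ f (p', q') ∈ N)) := by
    intro p q p' q' hp hq hp' hq' hne hU hD hU'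
    rcases hne with ⟨rfl, hne⟩ | ⟨hne, rfl⟩
    · -- common neighbour: `(2 p + 1 - s.1, s.2)`
      refine adj_contact (m := (s.1, 2 * q + 1 - s.2)) (n := (2 * p + 1 - s.1, s.2))
        (k := (s.1, 2 * q' + 1 - s.2)) (c := (p, q)) (c' := (p, q')) ?_ ?_ hU hD hU' hUN hNU hNK
      · refine pair p q hp hq _ _ (fun h => ?_) ?_ ?_
        · have := congrArg Prod.fst h; simp only at this; omega
        · simp only; omega
        · simp only; omega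
      · refine (pair p q' hp hq' _ _ (fun h => ?_) ?_ ?_)
        · have := congrArg Prod.fst h; simp only at this; omega
        · simp only; omega
        · simp only; omega
    · refine adj_contact (m := (2 * p + 1 - s.1, s.2)) (n := (s.1, 2 * q + 1 - s.2))
        (k := (2 * p' + 1 - s.1, s.2)) (c := (p, q)) (c' := (p', q)) ?_ ?_ hU hD hU' hUN hNU hNK
      · refine pair p q hp hq _ _ (fun h => ?_) ?_ ?_
        · have := congrArg Prod.fst h; simp only at this; omega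
        · simp only; omega
        · simp only; omega
      · refine (pair p' q hp' hq _ _ (fun h => ?_) ?_ ?_)
        · have := congrArg Prod.fst h; simp only at this; omega
        · simp only; omega
        · simp only; omega
  obtain ⟨p, q⟩ := b
  obtain ⟨p', q'⟩ := b'
  simp only at h1 h2
  by_cases e1 : p = p'
  · by_cases e2 : q = q'
    · exfalso
      subst e1 e2
      exact hb'U hb
    · refine ⟨(p', q'), hb', h2, adj p q p' q' h1.1 h1.2 h2.1 h2.2 (Or.inl ⟨e1, e2⟩) hb hb' hb'U⟩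
  · by_cases e2 : q = q'
    · refine ⟨(p', q'), hb', h2, adj p q p' q' h1.1 h1.2 h2.1 h2.2 (Or.inr ⟨e1, e2⟩) hb hb' hb'U⟩
    · have h3 : (p, q') ∈ Rsq p0 p1 q0 q1 := by
        rw [mem_Rsq] at hbD hb' ⊢
        exact ⟨hbD.1, hbD.2.1, hb'.2.2.1, hb'.2.2.2⟩
      by_cases h4 : (p, q') ∈ U
      · refine ⟨(p', q'), hb', h2,
          adj p q' p' q' h1.1 h2.2 h2.1 h2.2 (Or.inr ⟨e1, rfl⟩) h4 hb' hb'U⟩
      · refine ⟨(p, q'), h3, ⟨h1.1, h2.2⟩,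
          adj p q p q' h1.1 h1.2 h1.1 h2.2 (Or.inl ⟨rfl, e2⟩) hb h3 h4⟩

end around

/-- Contact sites, even case. -/
theorem around_P {p0 p1 q0 q1 : ℤ} {S2 S4 : Set (ℤ × ℤ)} {S : Finset (ℤ × ℤ)} {s b b' : ℤ × ℤ}
    (hs : (s.1 + s.2) % 2 = 0)
    (hb : b ∈ UU da db (Rsq p0 p1 q0 q1) S2 S4 S) (hb' : b' ∈ Rsq p0 p1 q0 q1)
    (hb'U : b' ∉ UU da db (Rsq p0 p1 q0 q1) S2 S4 S)
    (h1 : (s.1 = b.1 ∨ s.1 = b.1 + 1) ∧ (s.2 = b.2 ∨ s.2 = b.2 + 1))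
    (h2 : (s.1 = b'.1 ∨ s.1 = b'.1 + 1) ∧ (s.2 = b'.2 ∨ s.2 = b'.2 + 1)) :
    ∃ e, Bdr da db (Rsq p0 p1 q0 q1) S2 S4 S e ∧ (s = pa e ∨ s = pb e) := by
  obtain ⟨e, he, h3, h4⟩ := around (f := da) (g := db) (s := s)
    (U := UU da db (Rsq p0 p1 q0 q1) S2 S4 S) (K := KK da db (Rsq p0 p1 q0 q1) S2 S)
    (N := NN da db (Rsq p0 p1 q0 q1) S4 (KK da db (Rsq p0 p1 q0 q1) S2 S))
    (p0 := p0) (p1 := p1) (q0 := q0) (q1 := q1) (fun p q _ _ z => by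
      rw [do_iff]
      simp only
      omega) (fun c hc => (mem_UU.1 hc).2) (fun c hc h h' => mem_UU.2 ⟨hc, h, h'⟩)
    (fun c hc => ⟨fun h h' => (NN_closed hc (NN_disj h) h').1 h,
      fun h h' => (NN_closed hc h' (NN_disj h)).2 h⟩) hb (mem_UU.1 hb).1 hb' hb'U h1 h2
  exact ⟨e, ⟨he, h4⟩, co_iff.2 ⟨hs, h3⟩⟩

/-- Contact sites, odd case. -/
theorem around_D {p0 p1 q0 q1 : ℤ} {S2 S4 : Set (ℤ × ℤ)} {S : Finset (ℤ × ℤ)} {s b b' : ℤ × ℤ}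
    (hs : (s.1 + s.2) % 2 = 1)
    (hb : b ∈ UU pa pb (Rsq p0 p1 q0 q1) S2 S4 S) (hb' : b' ∈ Rsq p0 p1 q0 q1)
    (hb'U : b' ∉ UU pa pb (Rsq p0 p1 q0 q1) S2 S4 S)
    (h1 : (s.1 = b.1 ∨ s.1 = b.1 + 1) ∧ (s.2 = b.2 ∨ s.2 = b.2 + 1))
    (h2 : (s.1 = b'.1 ∨ s.1 = b'.1 + 1) ∧ (s.2 = b'.2 ∨ s.2 = b'.2 + 1)) :
    ∃ e, Bdr pa pb (Rsq p0 p1 q0 q1) S2 S4 S e ∧ (s = da e ∨ s = db e) := by
  obtain ⟨e, he, h3, h4⟩ := around (f := pa) (g := pb) (s := s)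
    (U := UU pa pb (Rsq p0 p1 q0 q1) S2 S4 S) (K := KK pa pb (Rsq p0 p1 q0 q1) S2 S)
    (N := NN pa pb (Rsq p0 p1 q0 q1) S4 (KK pa pb (Rsq p0 p1 q0 q1) S2 S))
    (p0 := p0) (p1 := p1) (q0 := q0) (q1 := q1) (fun p q _ _ z => by
      rw [co_iff]
      simp only
      omega) (fun c hc => (mem_UU.1 hc).2) (fun c hc h h' => mem_UU.2 ⟨hc, h, h'⟩)
    (fun c hc => ⟨fun h h' => (NN_closed hc (NN_disj h) h').1 h,
      fun h h' => (NN_closed hc h' (NN_disj h)).2 h⟩) hb (mem_UU.1 hb).1 hb' hb'U h1 h2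
  exact ⟨e, ⟨he, h4⟩, do_iff.2 ⟨hs, h3⟩⟩

/-! ### Planar duality of rectangles -/

theorem Rect_eq (a b c d : ℤ) : P153.Topo.Rect a b c d = Rsi a b c d := by
  ext z
  rw [P153.Topo.mem_rect]
  rfl

/-- Connections in the rectangle. -/
theorem con_rect_P {x0 x1 y0 y1 : ℤ} {S : Finset (ℤ × ℤ)} (hS : S ⊆ Rsq x0 x1 y0 y1)
    {u v : ℤ × ℤ} (hu : (u.1 + u.2) % 2 = 0) (huR : u ∈ Rsi x0 x1 y0 y1) :
    con pa pb ⊥ S u v ↔ PConn (↑S : Set (ℤ × ℤ)) (Rsi x0 x1 y0 y1) u v := by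
  rw [← rtg_rect huR, ← con_P (E := Rsq x0 x1 y0 y1) (η := eta0) hS (Int.even_iff.2 hu)]
  have e : op (cf (Rsq x0 x1 y0 y1) eta0 S) ∩ ↑(Rsq x0 x1 y0 y1) =
      (↑S : Set (ℤ × ℤ)) ∩ ↑(Rsq x0 x1 y0 y1) := by
    ext v
    by_cases hv : v ∈ Rsq x0 x1 y0 y1
    · simp [op, cf, hv]
    · simp [hv]
  rw [e]

theorem con_rect_D {x0 x1 y0 y1 : ℤ} {S : Finset (ℤ × ℤ)} (hS : S ⊆ Rsq x0 x1 y0 y1)
    {u v : ℤ × ℤ} (hu : (u.1 + u.2) % 2 = 1) (huR : u ∈ Rsi x0 x1 y0 y1) :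
    con da db ⊥ S u v ↔ PConn (↑S : Set (ℤ × ℤ)) (Rsi x0 x1 y0 y1) u v := by
  rw [← rtg_rect huR, ← con_D (E := Rsq x0 x1 y0 y1) (η := eta0) hS (Int.odd_iff.2 hu)]
  have e : (op (cf (Rsq x0 x1 y0 y1) eta0 (Rsq x0 x1 y0 y1 \ S)))ᶜ ∩ ↑(Rsq x0 x1 y0 y1) =
      (↑S : Set (ℤ × ℤ)) ∩ ↑(Rsq x0 x1 y0 y1) := by
    ext v
    by_cases hv : v ∈ Rsq x0 x1 y0 y1
    · simp [op, cf, hv]
    · simp [hv]
  rw [e]

/-- The sites of a side, of parity `e`. -/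
def sdX (e x y0 y1 : ℤ) : Set (ℤ × ℤ) := {s | s.1 = x ∧ y0 ≤ s.2 ∧ s.2 ≤ y1 ∧ (s.1 + s.2) % 2 = e}

/-- The sites of a side, of parity `e`. -/
def sdY (e y x0 x1 : ℤ) : Set (ℤ × ℤ) := {s | s.2 = y ∧ x0 ≤ s.1 ∧ s.1 ≤ x1 ∧ (s.1 + s.2) % 2 = e}

theorem PConn_congr {F F' R : Set (ℤ × ℤ)} (h : ∀ v, (∀ s : ℤ × ℤ, (s.1 = v.1 ∨ s.1 = v.1 + 1) →
    (s.2 = v.2 ∨ s.2 = v.2 + 1) → s ∈ R) → v ∈ F → v ∈ F') {u v : ℤ × ℤ}
    (hR : ∀ x ∈ R, ∀ y ∈ R, ∀ s : ℤ × ℤ, (s.1 = min x.1 y.1 ∨ s.1 = min x.1 y.1 + 1) →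
      (s.2 = min x.2 y.2 ∨ s.2 = min x.2 y.2 + 1) → (y.1 = x.1 + 1 ∨ y.1 = x.1 - 1) →
      (y.2 = x.2 + 1 ∨ y.2 = x.2 - 1) → s ∈ R) (huv : PConn F R u v) : PConn F' R u v := by
  obtain ⟨hu, h1⟩ := huv
  refine ⟨hu, ?_⟩
  have key : v ∈ R ∧ ReflTransGen (fun x y => PStep F' x y ∧ y ∈ R) u v := by
    induction h1 with
    | refl => exact ⟨hu, ReflTransGen.refl⟩
    | @tail x y _ h2 ih =>
      refine ⟨h2.2, ih.2.tail ⟨⟨h2.1.1, h2.1.2.1, h _ ?_ h2.1.2.2⟩, h2.2⟩⟩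
      intro s hs1 hs2
      exact hR x ih.1 y h2.2 s hs1 hs2 h2.1.1 h2.1.2.1
  exact key.2

theorem PConn_compl {x0 x1 y0 y1 : ℤ} {S : Finset (ℤ × ℤ)} {u v : ℤ × ℤ} :
    PConn (↑(Rsq x0 x1 y0 y1 \ S) : Set (ℤ × ℤ)) (Rsi x0 x1 y0 y1) u v ↔
      PConn (↑S : Set (ℤ × ℤ))ᶜ (Rsi x0 x1 y0 y1) u v := by
  constructor
  · intro h
    refine h.mono (fun z hz => ?_) subset_rfl
    have := (mem_sdiff.1 (Finset.mem_coe.1 hz)).2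
    simpa using this
  · intro h
    refine PConn_congr (fun z hz hz' => ?_) (fun x hx y hy s h1 h2 h3 h4 => ?_) h
    · have a1 := hz (z.1, z.2) (Or.inl rfl) (Or.inl rfl)
      have a2 := hz (z.1 + 1, z.2 + 1) (Or.inr rfl) (Or.inr rfl)
      refine Finset.mem_coe.2 (mem_sdiff.2 ⟨?_, by simpa using hz'⟩)
      rw [mem_Rsq]
      simp only [Rsi, Set.mem_ofPred_eq] at a1 a2
      omega
    · simp only [Rsi, Set.mem_ofPred_eq] at hx hy ⊢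
      omega

/-- Left–right open crossing or bottom–top dual crossing. -/
theorem quad_LR {x0 x1 y0 y1 : ℤ} (hx : x0 ≤ x1) (hy : y0 ≤ y1) :
    Quad pa pb da db (Rsq x0 x1 y0 y1) (sdY 1 y0 x0 x1) (sdY 1 y1 x0 x1)
      (sdX 0 x0 y0 y1) (sdX 0 x1 y0 y1) := by
  intro S hS
  constructor
  · rintro ⟨u, ⟨h1, h2, h3, h4⟩, v, ⟨k1, k2, k3, k4⟩, h⟩ ⟨r, ⟨r1, r2, r3, r4⟩, l, ⟨l1, l2, l3, l4⟩, h'⟩
    have huR : u ∈ Rsi x0 x1 y0 y1 := ⟨h1.ge, by omega, h2, h3⟩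
    have hrR : r ∈ Rsi x0 x1 y0 y1 := ⟨r2, r3, r1.ge, by omega⟩
    rw [con_rect_P hS h4 huR] at h
    rw [con_rect_D sdiff_subset r4 hrR, PConn_compl] at h'
    rw [← Rect_eq] at h h'
    exact P145.FB.easy h h1 k1 h4 h' r4 (Or.inl r1) (Or.inl l1)
  · intro h
    rcases P145.FB.hard (↑S : Set (ℤ × ℤ)) hx hy with ⟨u, v, h1, h2, h3, h4⟩ | ⟨u, v, h1, h2, h3, h4⟩
    · have huR := h4.left_mem
      have hvR := h4.right_mem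
      have hp := h4.parity
      rw [Rect_eq] at huR hvR h4
      rw [← con_rect_P hS h3 huR] at h4
      exact ⟨u, ⟨h1, huR.2.2.1, huR.2.2.2, h3⟩, v, ⟨h2, hvR.2.2.1, hvR.2.2.2, by omega⟩, h4⟩
    · exfalso
      have huR := h4.left_mem
      have hvR := h4.right_mem
      have hp := h4.parity
      rw [Rect_eq] at huR hvR h4
      rw [← PConn_compl, ← con_rect_D sdiff_subset h3 huR] at h4
      exact h ⟨u, ⟨h1, huR.1, huR.2.1, h3⟩, v, ⟨h2, hvR.1, hvR.2.1, by omega⟩, h4⟩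

theorem swap_sq (F : Set (ℤ × ℤ)) : (Prod.swap ⁻¹' (Prod.swap ⁻¹' F)) = F := by
  ext v; simp

theorem swap_Rsi (a b c d : ℤ) : Prod.swap ⁻¹' (Rsi a b c d) = Rsi c d a b := by
  ext v
  simp only [Rsi, Set.mem_preimage, Set.mem_ofPred_eq, Prod.fst_swap, Prod.snd_swap]
  tauto

/-- Bottom–top open crossing or right–left dual crossing. -/
theorem quad_BT {x0 x1 y0 y1 : ℤ} (hx : x0 ≤ x1) (hy : y0 ≤ y1) :
    Quad pa pb da db (Rsq x0 x1 y0 y1) (sdX 1 x1 y0 y1) (sdX 1 x0 y0 y1)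
      (sdY 0 y0 x0 x1) (sdY 0 y1 x0 x1) := by
  intro S hS
  constructor
  · rintro ⟨u, ⟨h1, h2, h3, h4⟩, v, ⟨k1, k2, k3, k4⟩, h⟩ ⟨r, ⟨r1, r2, r3, r4⟩, l, ⟨l1, l2, l3, l4⟩, h'⟩
    have huR : u ∈ Rsi x0 x1 y0 y1 := ⟨h2, h3, h1.ge, by omega⟩
    have hrR : r ∈ Rsi x0 x1 y0 y1 := ⟨by omega, r1.le, r2, r3⟩
    rw [con_rect_P hS h4 huR] at h
    rw [con_rect_D sdiff_subset r4 hrR, PConn_compl] at h'
    have h5 := h.swap
    have h6 := h'.symm.swap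
    rw [swap_Rsi, ← Rect_eq] at h5 h6
    rw [Set.preimage_compl] at h6
    refine P145.FB.easy h5 h1 k1 (by simp only [Prod.fst_swap, Prod.snd_swap]; omega) h6
      (by simp only [Prod.fst_swap, Prod.snd_swap]; omega) (Or.inl l1) (Or.inl r1)
  · intro h
    rcases P145.FB.hard (Prod.swap ⁻¹' (↑S : Set (ℤ × ℤ))) (a := y0) (b := y1) (c := x0) (d := x1)
      hy hx with ⟨u, v, h1, h2, h3, h4⟩ | ⟨u, v, h1, h2, h3, h4⟩
    · have h5 := h4.swap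
      rw [swap_sq, Rect_eq, swap_Rsi] at h5
      have huR := h5.left_mem
      have hvR := h5.right_mem
      have hp := h4.parity
      rw [← con_rect_P hS (by simp only [Prod.fst_swap, Prod.snd_swap]; omega) huR] at h5
      refine ⟨u.swap, ⟨h1, huR.1, huR.2.1, ?_⟩, v.swap, ⟨h2, hvR.1, hvR.2.1, ?_⟩, h5⟩
      · simp only [Prod.fst_swap, Prod.snd_swap]; omega
      · simp only [Prod.fst_swap, Prod.snd_swap]; omega
    · exfalso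
      have h5 := h4.swap.symm
      rw [Set.preimage_compl, swap_sq, Rect_eq, swap_Rsi] at h5
      have huR := h5.right_mem
      have hvR := h5.left_mem
      have hp := h4.parity
      rw [← PConn_compl, ← con_rect_D sdiff_subset (by
        simp only [Prod.fst_swap, Prod.snd_swap]; omega) hvR] at h5
      refine h ⟨v.swap, ⟨h2, hvR.2.2.1, hvR.2.2.2, ?_⟩, u.swap, ⟨h1, huR.2.2.1, huR.2.2.2, ?_⟩, h5⟩
      · simp only [Prod.fst_swap, Prod.snd_swap]; omega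
      · simp only [Prod.fst_swap, Prod.snd_swap]; omega

end Vale.Agent.P167.H997
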