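import Vale.Agent.P167.H262.R0
import Vale.Agent.P167.H816.CM

/-!
# P167, RSW for `q < 1`: blocks of squares, change of the exterior

`block`: in a block of squares of `F` the sites of one parity are joined. `mm_congr`: `mm` depends only
on the points of the domain. `Pr_xchg`: `FK.Pr` depends only on the exterior relation. `Pr_root`: one
root class.
-/

set_option autoImplicit false
set_option linter.unusedSectionVars false

namespace Vale.Agent.P167.H997

open Finset Vale.Agent.P167.FK Vale.Agent.P167.H816 Vale.Agent.P167.H262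
open Vale.Agent.P145.FB (PStep PConn)
open Vale.Agent.P167.H623 (join sup_join conf)
open Relation (ReflTransGen)

/-! ### Blocks -/

theorem step_mk {F : Set (ℤ × ℤ)} {p q x y x' y' : ℤ} (h : (p, q) ∈ F)
    (hx : (x = p ∧ x' = p + 1) ∨ (x = p + 1 ∧ x' = p))
    (hy : (y = q ∧ y' = q + 1) ∨ (y = q + 1 ∧ y' = q)) : PStep F (x, y) (x', y') := by
  refine ⟨by simp only; omega, by simp only; omega, ?_⟩
  have e1 : min x x' = p := by omega
  have e2 : min y y' = q := by omega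
  show (min x x', min y y') ∈ F
  rw [e1, e2]
  exact h

theorem block_aux {F : Set (ℤ × ℤ)} {p0 p1 q0 q1 : ℤ}
    (h : ∀ p q, p0 ≤ p → p < p1 → q0 ≤ q → q < q1 → (p, q) ∈ F) (hp : p0 < p1) (hq : q0 < q1) :
    ∀ n : ℕ, ∀ x y : ℤ, p0 ≤ x → x ≤ p1 → q0 ≤ y → y ≤ q1 → (x - p0) + (y - q0) ≤ n →
      ReflTransGen (PStep F) (x, y)
        (if (x + y - p0 - q0) % 2 = 0 then (p0, q0) else (p0 + 1, q0)) := by
  intro n
  induction n using Nat.strong_induction_on with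
  | _ n ih =>
    intro x y hx0 hx1 hy0 hy1 hn
    by_cases c1 : x ≤ p0 + 1 ∧ y ≤ q0 + 1
    · by_cases hpar : (x + y - p0 - q0) % 2 = 0
      · rw [if_pos hpar]
        by_cases c2 : x = p0
        · obtain rfl : y = q0 := by omega
          rw [c2]
        · obtain rfl : x = p0 + 1 := by omega
          obtain rfl : y = q0 + 1 := by omega
          exact ReflTransGen.single (step_mk (h p0 q0 le_rfl hp le_rfl hq)
            (Or.inr ⟨rfl, rfl⟩) (Or.inr ⟨rfl, rfl⟩))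
      · rw [if_neg hpar]
        by_cases c2 : x = p0
        · obtain rfl : y = q0 + 1 := by omega
          rw [c2]
          exact ReflTransGen.single (step_mk (h p0 q0 le_rfl hp le_rfl hq)
            (Or.inl ⟨rfl, rfl⟩) (Or.inr ⟨rfl, rfl⟩))
        · obtain rfl : x = p0 + 1 := by omega
          obtain rfl : y = q0 := by omega
          exact ReflTransGen.refl
    · have hn2 : 2 ≤ n := by omega
      by_cases c2 : p0 + 1 ≤ x ∧ q0 + 1 ≤ y
      · have h1 := ih (n - 2) (by omega) (x - 1) (y - 1) (by omega) (by omega) (by omega)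
          (by omega) (by omega)
        have h2 : PStep F (x, y) (x - 1, y - 1) :=
          step_mk (h (x - 1) (y - 1) (by omega) (by omega) (by omega) (by omega))
            (Or.inr ⟨by omega, rfl⟩) (Or.inr ⟨by omega, rfl⟩)
        have e : (x - 1 + (y - 1) - p0 - q0) % 2 = 0 ↔ (x + y - p0 - q0) % 2 = 0 := by omega
        simp only [e] at h1
        exact ReflTransGen.head h2 h1
      · by_cases c3 : y = q0
        · have h1 := ih (n - 2) (by omega) (x - 2) y (by omega) (by omega) (by omega)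
            (by omega) (by omega)
          have h2 : PStep F (x, y) (x - 1, y + 1) :=
            step_mk (h (x - 1) y (by omega) (by omega) (by omega) (by omega))
              (Or.inr ⟨by omega, rfl⟩) (Or.inl ⟨rfl, rfl⟩)
          have h3 : PStep F (x - 1, y + 1) (x - 2, y) :=
            step_mk (h (x - 2) y (by omega) (by omega) (by omega) (by omega))
              (Or.inr ⟨by omega, rfl⟩) (Or.inr ⟨rfl, rfl⟩)
          have e : (x - 2 + y - p0 - q0) % 2 = 0 ↔ (x + y - p0 - q0) % 2 = 0 := by omega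
          simp only [e] at h1
          exact ReflTransGen.head h2 (ReflTransGen.head h3 h1)
        · have c4 : x = p0 := by omega
          have h1 := ih (n - 2) (by omega) x (y - 2) (by omega) (by omega) (by omega)
            (by omega) (by omega)
          have h2 : PStep F (x, y) (x + 1, y - 1) :=
            step_mk (h x (y - 1) (by omega) (by omega) (by omega) (by omega))
              (Or.inl ⟨rfl, rfl⟩) (Or.inr ⟨by omega, rfl⟩)
          have h3 : PStep F (x + 1, y - 1) (x, y - 2) :=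
            step_mk (h x (y - 2) (by omega) (by omega) (by omega) (by omega))
              (Or.inr ⟨rfl, rfl⟩) (Or.inr ⟨by omega, rfl⟩)
          have e : (x + (y - 2) - p0 - q0) % 2 = 0 ↔ (x + y - p0 - q0) % 2 = 0 := by omega
          simp only [e] at h1
          exact ReflTransGen.head h2 (ReflTransGen.head h3 h1)

theorem rtg_symm {F : Set (ℤ × ℤ)} {s t : ℤ × ℤ} (h : ReflTransGen (PStep F) s t) :
    ReflTransGen (PStep F) t s := by
  induction h with
  | refl => exact ReflTransGen.refl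
  | tail _ h1 ih => exact ReflTransGen.head h1.symm ih

/-- In a block of squares of `F` the sites of one parity are joined. -/
theorem block {F : Set (ℤ × ℤ)} {p0 p1 q0 q1 : ℤ}
    (h : ∀ p q, p0 ≤ p → p < p1 → q0 ≤ q → q < q1 → (p, q) ∈ F) (hp : p0 < p1) (hq : q0 < q1)
    {s t : ℤ × ℤ} (hs : p0 ≤ s.1 ∧ s.1 ≤ p1 ∧ q0 ≤ s.2 ∧ s.2 ≤ q1)
    (ht : p0 ≤ t.1 ∧ t.1 ≤ p1 ∧ q0 ≤ t.2 ∧ t.2 ≤ q1) (hst : (s.1 + s.2) % 2 = (t.1 + t.2) % 2) :
    ReflTransGen (PStep F) s t := by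
  obtain ⟨x, y⟩ := s
  obtain ⟨x', y'⟩ := t
  simp only at hs ht hst
  obtain ⟨a1, a2, a3, a4⟩ := hs
  obtain ⟨b1, b2, b3, b4⟩ := ht
  have h1 := block_aux h hp hq ((x - p0) + (y - q0)).toNat x y a1 a2 a3 a4 (by omega)
  have h2 := block_aux h hp hq ((x' - p0) + (y' - q0)).toNat x' y' b1 b2 b3 b4 (by omega)
  have e : (x + y - p0 - q0) % 2 = 0 ↔ (x' + y' - p0 - q0) % 2 = 0 := by omega
  simp only [e] at h1
  exact h1.trans (rtg_symm h2)

theorem blockP {ω : Cfg} {p0 p1 q0 q1 : ℤ}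
    (h : ∀ p q, p0 ≤ p → p < p1 → q0 ≤ q → q < q1 → ω (p, q) = true) (hp : p0 < p1)
    (hq : q0 < q1) {s t : ℤ × ℤ} (hs : p0 ≤ s.1 ∧ s.1 ≤ p1 ∧ q0 ≤ s.2 ∧ s.2 ≤ q1)
    (ht : p0 ≤ t.1 ∧ t.1 ≤ p1 ∧ q0 ≤ t.2 ∧ t.2 ≤ q1) (hst : (s.1 + s.2) % 2 = (t.1 + t.2) % 2) :
    PC ω s t := block (F := op ω) h hp hq hs ht hst

theorem blockD {ω : Cfg} {p0 p1 q0 q1 : ℤ}
    (h : ∀ p q, p0 ≤ p → p < p1 → q0 ≤ q → q < q1 → ω (p, q) = false) (hp : p0 < p1)
    (hq : q0 < q1) {s t : ℤ × ℤ} (hs : p0 ≤ s.1 ∧ s.1 ≤ p1 ∧ q0 ≤ s.2 ∧ s.2 ≤ q1)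
    (ht : p0 ≤ t.1 ∧ t.1 ≤ p1 ∧ q0 ≤ t.2 ∧ t.2 ≤ q1) (hst : (s.1 + s.2) % 2 = (t.1 + t.2) % 2) :
    DC ω s t := by
  refine block (F := (op ω)ᶜ) (fun p q h1 h2 h3 h4 => ?_) hp hq hs ht hst
  simpa [op] using h p q h1 h2 h3 h4

/-! ### `mm` depends only on the domain -/

section mm

variable {X ι : Type*} [DecidableEq ι] (a b : ι → X) {w : ι → ℝ} {q : ℝ} (D : Finset ι)

theorem con_bot_mem {S : Finset ι} (hS : S ⊆ D) {x y : X} (h : con a b ⊥ S x y) :
    x = y ∨ (x ∈ ends a b D ∧ y ∈ ends a b D) := by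
  rcases con_exists₂ a b (r := ⊥) (S := S) (Y := ends a b D)
    (fun e he => ⟨fst_mem_ends a b D (hS he), snd_mem_ends a b D (hS he)⟩) h with
    h1 | ⟨z, hz, z', hz', h1, -, h3⟩
  · exact Or.inl h1
  · have e1 : x = z := h1
    have e2 : z' = y := h3
    rw [e1, ← e2]
    exact Or.inr ⟨hz, hz'⟩

theorem mm_congr (hq : 0 < q) {Y Z Z' A A' B : Set X} (hY : ∀ x ∈ ends a b D, x ∈ Y)
    (hB : B ⊆ Y) (hZ : ∀ x ∈ Y, (x ∈ Z ↔ x ∈ Z')) (hA : ∀ x ∈ Y, (x ∈ A ↔ x ∈ A')) :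
    mm a b w q D Z A B = mm a b w q D Z' A' B := by
  refine GP_congr a b D hq (fun x hx y hy => ?_) fun S hS => not_congr ?_
  · constructor
    · rintro (h | ⟨h, h'⟩)
      · exact Or.inl h
      · exact Or.inr ⟨(hZ x (hY x hx)).1 h, (hZ y (hY y hy)).1 h'⟩
    · rintro (h | ⟨h, h'⟩)
      · exact Or.inl h
      · exact Or.inr ⟨(hZ x (hY x hx)).2 h, (hZ y (hY y hy)).2 h'⟩
  · constructor
    · intro h t ht x hx hc
      have h1 : t ∈ Y := by
        rcases con_bot_mem a b D hS hc with h1 | ⟨h1, -⟩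
        · rw [h1]; exact hB hx
        · exact hY t h1
      exact h t ((hA t h1).2 ht) x hx hc
    · intro h t ht x hx hc
      have h1 : t ∈ Y := by
        rcases con_bot_mem a b D hS hc with h1 | ⟨h1, -⟩
        · rw [h1]; exact hB hx
        · exact hY t h1
      exact h t ((hA t h1).1 ht) x hx hc

/-- Also `B` may be changed off the domain if it is in the domain. -/
theorem mm_congr' (hq : 0 < q) {Z Z' A A' B B' : Set X}
    (hZ : ∀ x ∈ ends a b D, (x ∈ Z ↔ x ∈ Z')) (hA : ∀ x ∈ ends a b D, (x ∈ A ↔ x ∈ A'))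
    (hB : ∀ x ∈ ends a b D, (x ∈ B ↔ x ∈ B')) (h1 : Disjoint A B) (h2 : Disjoint A' B') :
    mm a b w q D Z A B = mm a b w q D Z' A' B' := by
  refine GP_congr a b D hq (fun x hx y hy => ?_) fun S hS => not_congr ?_
  · constructor
    · rintro (h | ⟨h, h'⟩)
      · exact Or.inl h
      · exact Or.inr ⟨(hZ x hx).1 h, (hZ y hy).1 h'⟩
    · rintro (h | ⟨h, h'⟩)
      · exact Or.inl h
      · exact Or.inr ⟨(hZ x hx).2 h, (hZ y hy).2 h'⟩
  · constructor
    · intro h t ht x hx hc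
      rcases con_bot_mem a b D hS hc with h3 | ⟨h3, h4⟩
      · rw [h3] at ht
        exact Set.disjoint_left.1 h2 ht hx
      · exact h t ((hA t h3).2 ht) x ((hB x h4).2 hx) hc
    · intro h t ht x hx hc
      rcases con_bot_mem a b D hS hc with h3 | ⟨h3, h4⟩
      · rw [h3] at ht
        exact Set.disjoint_left.1 h1 ht hx
      · exact h t ((hA t h3).1 ht) x ((hB x h4).1 hx) hc

theorem mm_mono (hw : ∀ e, 0 ≤ w e) (hq : 0 < q) {Z A A' B B' : Set X} (hA : A ⊆ A')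
    (hB : B ⊆ B') : mm a b w q D Z A B ≤ mm a b w q D Z A' B' :=
  GP_mono a b D hw hq fun _ _ h h' => h fun t ht x hx => h' t (hA ht) x (hB hx)

theorem mm_le_one (hw : ∀ e, 0 ≤ w e) (hq : 0 < q) (Z A B : Set X) :
    mm a b w q D Z A B ≤ 1 := by
  have h := mm_eq a b D hw hq Z A B
  have h1 := GP_nonneg a b D hw hq (r := wir Z) (H816.Sep a b ⊥ A B)
  linarith

/-- The connections in the case of a root class. -/
theorem con_wir_iff {W : Set X} {S : Finset ι} {x u : X} (hx : x ∈ W) :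
    con a b (wir W) S x u ↔ ∃ z ∈ W, con a b ⊥ S z u := by
  have e : con a b (wir W) S = con a b ⊥ S ⊔ wir W := by
    rw [← con_sup_wir, bot_sup_eq]
  rw [e, sup_wir_iff]
  constructor
  · rintro (h | ⟨-, z, hz, h⟩)
    · exact ⟨x, hx, h⟩
    · exact ⟨z, hz, (con a b ⊥ S).symm h⟩
  · rintro ⟨z, hz, h⟩
    exact Or.inr ⟨⟨x, hx, (con a b ⊥ S).refl x⟩, z, hz, (con a b ⊥ S).symm h⟩

end mm

/-! ### Change of the exterior -/

variable {Q : ℝ} {D E : Finset (ℤ × ℤ)} {η ξ : Cfg}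

theorem mem_ends_iff {x : ℤ × ℤ} : x ∈ ends pa pb D ↔ x ∈ Ev D := mem_ends pa pb D

/-- Connections to `u` in terms of the exterior relation. -/
theorem Pr_PC (hQ : 0 < Q) (hη : Good η) {v u : ℤ × ℤ} (hv : Even (v.1 + v.2)) :
    Pr Q D η {ω | PC ω v u} = GP pa pb (fun _ => Q) (Q ^ 2) D (PCs (cf D η ∅))
      (fun S => con pa pb (PCs (cf D η ∅)) S v u) := by
  rw [Pr_eq_GP hQ hη]
  exact GP_congr pa pb D (pow_pos hQ 2) (fun _ _ _ _ => Iff.rfl) fun S hS => PC_cf hS hv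

/-- **Change of the exterior.** -/
theorem Pr_xchg (hQ : 0 < Q) (hη : Good η) (hξ : Good ξ) {u v v' : ℤ × ℤ}
    (hu : Even (u.1 + u.2)) (hv : Even (v.1 + v.2)) (hv' : Even (v'.1 + v'.2))
    (h1 : ∀ x ∈ Ev D ∪ {u}, ∀ y ∈ Ev D ∪ {u}, (PC (cf D η ∅) x y ↔ PC (cf D ξ ∅) x y))
    (h2 : ∀ x ∈ Ev D ∪ {u}, (PC (cf D η ∅) x v ↔ PC (cf D ξ ∅) x v')) :
    Pr Q D η {ω | PC ω v u} = Pr Q D ξ {ω | PC ω v' u} := by
  have hev : ∀ x ∈ Ev D ∪ {u}, Even (x.1 + x.2) := by
    rintro x (hx | hx)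
    · exact even_Ev hx
    · rw [Set.mem_singleton_iff] at hx
      rw [hx]; exact hu
  rw [Pr_PC hQ hη hv, Pr_PC hQ hξ hv']
  have hrel : ∀ x ∈ Ev D ∪ {u}, ∀ y ∈ Ev D ∪ {u},
      (PCs (cf D η ∅) x y ↔ PCs (cf D ξ ∅) x y) := by
    intro x hx y hy
    rw [PCs_iff (hev x hx), PCs_iff (hev x hx)]
    exact h1 x hx y hy
  have key : ∀ {η ξ : Cfg} {v v' : ℤ × ℤ},
      (∀ x ∈ Ev D ∪ {u}, ∀ y ∈ Ev D ∪ {u}, (PCs (cf D η ∅) x y ↔ PCs (cf D ξ ∅) x y)) →
      (∀ x ∈ Ev D ∪ {u}, (PCs (cf D η ∅) x v ↔ PCs (cf D ξ ∅) x v')) → ∀ S ⊆ D,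
      con pa pb (PCs (cf D η ∅)) S v u → con pa pb (PCs (cf D ξ ∅)) S v' u := by
    intro η ξ v v' hrel hrel' S hS h
    have hY : ∀ e ∈ S, pa e ∈ ends pa pb D ∧ pb e ∈ ends pa pb D :=
      fun e he => ⟨fst_mem_ends pa pb D (hS he), snd_mem_ends pa pb D (hS he)⟩
    have hc := con_congr pa pb (S := S) (Y := Ev D ∪ {u})
      (fun e he => ⟨Or.inl (mem_ends_iff.1 (hY e he).1), Or.inl (mem_ends_iff.1 (hY e he).2)⟩) hrel
    rcases con_exists₂ pa pb hY h with h3 | ⟨y, hy, y', hy', h3, h4, h5⟩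
    · refine le_con pa pb _ S ((PCs _).symm ((hrel' u (Or.inr rfl)).1 ((PCs _).symm h3)))
    · have hy1 : y ∈ Ev D ∪ {u} := Or.inl (mem_ends_iff.1 hy)
      have hy2 : y' ∈ Ev D ∪ {u} := Or.inl (mem_ends_iff.1 hy')
      refine (con pa pb _ S).trans (le_con pa pb _ S ((PCs _).symm ((hrel' y hy1).1
        ((PCs _).symm h3)))) ((con pa pb _ S).trans ((hc y hy1 y' hy2).1 h4)
          (le_con pa pb _ S ((hrel y' hy2 u (Or.inr rfl)).1 h5)))
  have hrel' : ∀ x ∈ Ev D ∪ {u}, (PCs (cf D η ∅) x v ↔ PCs (cf D ξ ∅) x v') := by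
    intro x hx
    rw [PCs_iff (hev x hx), PCs_iff (hev x hx)]
    exact h2 x hx
  refine GP_congr pa pb D (pow_pos hQ 2) (fun x hx y hy => hrel x (Or.inl (mem_ends_iff.1 hx)) y
    (Or.inl (mem_ends_iff.1 hy))) fun S hS => ⟨key hrel hrel' S hS, key ?_ ?_ S hS⟩
  · exact fun x hx y hy => (hrel x hx y hy).symm
  · exact fun x hx => (hrel' x hx).symm

/-- **One root class.** -/
theorem Pr_root (hQ : 0 < Q) (hη : Good η) {u v : ℤ × ℤ} (hu : Even (u.1 + u.2))
    (hv : Even (v.1 + v.2)) (huv : u ≠ v) {W : Set (ℤ × ℤ)}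
    (h1 : ∀ x ∈ Ev D ∪ {u}, x ∈ W → PC (cf D η ∅) x v)
    (h2 : ∀ x ∈ Ev D ∪ {u}, ∀ y, PC (cf D η ∅) x y → x = y ∨ x ∈ W) (hvW : v ∈ W ∨ v ∉ Ev D) :
    Pr Q D η {ω | PC ω v u} = mm pa pb (fun _ => Q) (Q ^ 2) D W W {u} := by
  have hev : ∀ x ∈ Ev D ∪ {u}, Even (x.1 + x.2) := by
    rintro x (hx | hx)
    · exact even_Ev hx
    · rw [Set.mem_singleton_iff] at hx
      rw [hx]; exact hu
  have e1 : mm pa pb (fun _ => Q) (Q ^ 2) D W W {u} =
      mm pa pb (fun _ => Q) (Q ^ 2) D (insert v W) (insert v W) {u} := by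
    refine mm_congr pa pb D (pow_pos hQ 2) (Y := Ev D ∪ {u})
      (fun x hx => Or.inl (mem_ends_iff.1 hx)) (fun x hx => Or.inr hx) ?_ ?_ <;>
    · intro x hx
      refine ⟨fun h => Or.inr h, ?_⟩
      rintro (h | h)
      · subst h
        rcases hvW with h | h
        · exact h
        · rcases hx with hx | hx
          · exact absurd hx h
          · exact absurd hx.symm huv
      · exact h
  rw [e1, Pr_PC hQ hη hv, mm]
  set W' : Set (ℤ × ℤ) := insert v W with hW'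
  have hrel : ∀ x ∈ Ev D ∪ {u, v}, ∀ y ∈ Ev D ∪ {u, v}, (PCs (cf D η ∅) x y ↔ wir W' x y) := by
    have g1 : ∀ x ∈ Ev D ∪ {u, v}, x ∈ W' → PC (cf D η ∅) x v := by
      rintro x hx (h | h)
      · rw [h]; exact ReflTransGen.refl
      · rcases hx with hx | hx | hx
        · exact h1 x (Or.inl hx) h
        · exact h1 x (Or.inr hx) h
        · rw [Set.mem_singleton_iff] at hx
          rw [hx]; exact ReflTransGen.refl
    have g2 : ∀ x ∈ Ev D ∪ {u, v}, ∀ y, PC (cf D η ∅) x y → x = y ∨ x ∈ W' := by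
      rintro x hx y h
      rcases hx with hx | hx | hx
      · exact (h2 x (Or.inl hx) y h).imp id fun h => Or.inr h
      · exact (h2 x (Or.inr hx) y h).imp id fun h => Or.inr h
      · rw [Set.mem_singleton_iff] at hx
        exact Or.inr (Or.inl hx)
    have hev' : ∀ x ∈ Ev D ∪ {u, v}, Even (x.1 + x.2) := by
      rintro x (hx | hx | hx)
      · exact even_Ev hx
      · rw [hx]; exact hu
      · rw [Set.mem_singleton_iff] at hx
        rw [hx]; exact hv
    intro x hx y hy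
    rw [PCs_iff (hev' x hx)]
    constructor
    · intro h
      by_cases hxy : x = y
      · exact Or.inl hxy
      · refine Or.inr ⟨(g2 x hx y h).resolve_left hxy,
          (g2 y hy x (PC_symm h)).resolve_left (Ne.symm hxy)⟩
    · rintro (h | ⟨h, h'⟩)
      · rw [h]; exact ReflTransGen.refl
      · exact (g1 x hx h).trans (PC_symm (g1 y hy h'))
  refine GP_congr pa pb D (pow_pos hQ 2) (fun x hx y hy => ?_) fun S hS => ?_
  · exact hrel x (Or.inl (mem_ends_iff.1 hx)) y (Or.inl (mem_ends_iff.1 hy))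
  · have hc := con_congr pa pb (S := S) (Y := Ev D ∪ {u, v})
      (fun e he => ⟨Or.inl (mem_ends_iff.1 (fst_mem_ends pa pb D (hS he))),
        Or.inl (mem_ends_iff.1 (snd_mem_ends pa pb D (hS he)))⟩) hrel v (Or.inr (Or.inr rfl)) u
        (Or.inr (Or.inl rfl))
    rw [hc, con_wir_iff pa pb (Or.inl rfl : v ∈ W')]
    unfold H816.Sep
    push Not
    constructor
    · rintro ⟨z, hz, h⟩
      exact ⟨z, hz, u, rfl, h⟩
    · rintro ⟨z, hz, x, hx, h⟩
      rw [Set.mem_singleton_iff] at hx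
      rw [hx] at h
      exact ⟨z, hz, h⟩

end Vale.Agent.P167.H997
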