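import Vale.Agent.P167.H997.Pf

/-!
# P167, RSW for `q < 1`: the bound for the sum of the lower side

`Lm` decreases in the height; `(1 - Q) (1 + Lm n (n+2)) ≤ Tp n (n+2)`.
-/

set_option autoImplicit false
set_option linter.unusedSectionVars false

namespace Vale.Agent.P167.H997

open Finset Vale.Agent.P167.FK Vale.Agent.P167.H816 Vale.Agent.P167.H262
open Vale.Agent.P145.FB (PStep PConn)
open Vale.Agent.P167.H947.Q (mem_fe mem_fo)
open Relation (ReflTransGen)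

section abs

variable {X ι : Type*} [DecidableEq ι] (a b : ι → X) {w : ι → ℝ} {q : ℝ}

theorem mm_drop1 (D : Finset ι) (hw : ∀ e, 0 < w e) (hq : 0 < q) {Z A : Set X} (B : Set X)
    (hA : A ⊆ Z) (L : Finset ι) (hL : ∀ e ∈ L, e ∈ D → a e ∈ A ∧ b e ∈ A) :
    mm a b w q D Z A B = mm a b w q (D \ L) Z A B := by
  induction L using Finset.induction_on with
  | empty => rw [sdiff_empty]
  | insert e L heL ih =>
    rw [ih fun f hf => hL f (mem_insert_of_mem hf)]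
    by_cases he : e ∈ D
    · have h1 : D \ L = insert e (D \ insert e L) := by
        ext x
        simp only [mem_sdiff, mem_insert]
        by_cases hx : x = e
        · subst hx; simp [he, heL]
        · simp [hx]
      have h2 : e ∉ D \ insert e L := by simp
      have h3 := hL e (mem_insert_self e L) he
      conv_lhs => rw [h1]
      exact GP_loop a b _ hw hq h2 (Or.inr ⟨hA h3.1, hA h3.2⟩) fun S _ =>
        not_congr (sep_insert a b (Or.inl h3) S)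
    · congr 1
      ext x
      simp only [mem_sdiff, mem_insert]
      by_cases hx : x = e
      · subst hx; simp [he]
      · simp [hx]

/-- **The domain shrinks**, the root class grows. -/
theorem mm_shrink (hw : ∀ e, 0 < w e) (hq : 0 < q) (hq1 : q ≤ 1) {D D' : Finset ι}
    {W W' B : Set X} (hD : D' ⊆ D) (Y : Set X) (hY : ∀ x ∈ ends a b D', x ∈ Y) (hB : B ⊆ Y)
    (hW : ∀ x ∈ Y, x ∈ W → x ∈ W')
    (hL : ∀ e ∈ D, e ∉ D' → (a e ∈ Y → a e ∈ W') ∧ (b e ∈ Y → b e ∈ W')) :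
    mm a b w q D W W B ≤ mm a b w q D' W' W' B := by
  set A' : Set X := {x | x ∈ Y → x ∈ W'} with hA'
  have h1 := mm_grow a b D (fun e => (hw e).le) hq hq1 (Z := W) (A := W) (A' := A') B
    (fun x hx hxY => hW x hxY hx) subset_rfl
  have h2 := mm_drop1 a b D hw hq (Z := W ∪ A') (A := A') B Set.subset_union_right (D \ D')
    (fun e he _ => by
      rw [mem_sdiff] at he
      exact hL e he.1 he.2)
  rw [Finset.sdiff_sdiff_eq_self hD] at h2
  refine h1.trans (h2.trans ?_).le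
  refine mm_congr a b D' hq hY hB (fun x hx => ?_) fun x hx => ?_
  · constructor
    · rintro (h | h)
      · exact hW x hx h
      · exact h hx
    · exact fun h => Or.inr fun _ => h
  · exact ⟨fun h => h hx, fun h _ => h⟩

end abs

variable {Q : ℝ} {n H : ℤ}

theorem dr_anti (hQ : 0 < Q) (hQ1 : Q ≤ 1) {H' : ℤ} (hHH : H ≤ H') (hH : 0 < H) {y : ℤ}
    (hy1 : -n < y) (hy2 : y < 0) : dr Q n H' (y, 0) ≤ dr Q n H (y, 0) := by
  have hRx : ∀ x ∈ Od (Rn n H) ∪ {((y, 0) : ℤ × ℤ)}, x.2 ≤ H := by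
    rintro x (hx | hx)
    · obtain ⟨b, hb, k1, k2, k3⟩ := mem_Od_iff.1 hx
      have := mem_Rn.1 hb
      omega
    · rw [Set.mem_singleton_iff] at hx
      rw [hx]
      exact hH.le
  refine mm_shrink da db (fun _ => hQ) (pow_pos hQ 2) (pow_le_one' hQ hQ1) ?_
    (Od (Rn n H) ∪ {((y, 0) : ℤ × ℤ)}) (fun x hx => Or.inl (mem_ends_iff'.1 hx))
    (fun x hx => Or.inr hx) ?_ ?_
  · intro b hb
    rw [mem_Rn] at hb ⊢
    omega
  · rintro x hx (h | h | h)
    · exact Or.inl h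
    · exact Or.inr (Or.inl h)
    · have := hRx x hx
      exact Or.inr (Or.inr (by omega))
  · intro e he he'
    rw [mem_Rn] at he he'
    have key : ∀ x, (x = da e ∨ x = db e) → x ∈ Od (Rn n H) ∪ {((y, 0) : ℤ × ℤ)} →
        x ∈ Wn n H := by
      intro x h1 h2
      obtain ⟨k1, k2, k3⟩ := do_iff.1 h1
      have := hRx x h2
      exact Or.inr (Or.inr (by omega))
    exact ⟨key _ (Or.inl rfl), key _ (Or.inr rfl)⟩

theorem Lm_anti (hQ : 0 < Q) (hQ1 : Q ≤ 1) {H' : ℤ} (hHH : H ≤ H') (hH : 0 < H) :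
    Lm Q n H' ≤ Lm Q n H := by
  refine sum_le_sum fun y hy => ?_
  rw [mem_fo] at hy
  exact dr_anti hQ hQ1 hHH hH hy.1 hy.2.1

theorem pr_nonneg (hQ : 0 < Q) (u : ℤ × ℤ) : 0 ≤ pr Q n H u :=
  mm_nonneg pa pb _ (fun _ => hQ.le) (pow_pos hQ 2) _ _ _

theorem pr_le_one (hQ : 0 < Q) (u : ℤ × ℤ) : pr Q n H u ≤ 1 :=
  mm_le_one pa pb _ (fun _ => hQ.le) (pow_pos hQ 2) _ _ _

theorem dr_nonneg (hQ : 0 < Q) (u : ℤ × ℤ) : 0 ≤ dr Q n H u :=
  mm_nonneg da db _ (fun _ => hQ.le) (pow_pos hQ 2) _ _ _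

theorem Lm_nonneg (hQ : 0 < Q) : 0 ≤ Lm Q n H := sum_nonneg fun _ _ => dr_nonneg hQ _

theorem Tp_nonneg (hQ : 0 < Q) : 0 ≤ Tp Q n H := sum_nonneg fun _ _ => pr_nonneg hQ _

/-- From the left side to the dual lower side. -/
theorem pr_le_dr (hQ : 0 < Q) (hQ1 : Q ≤ 1) (hn : n % 2 = 0) (hn0 : 0 ≤ n) {y : ℤ}
    (hy : y % 2 = 1) (hy1 : 1 < y) (hy2 : y < n + 2) :
    pr Q n (n + 2) (-n - 1, y) ≤ dr Q n (n + 2) (y - n - 2, 0) := by
  have h1 : pr Q n (n + 2) (-n - 1, y) ≤ pr Q n (n + 3) (-n - 1, y) :=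
    grow_top hQ hQ1 (by omega) (by omega) (by omega) (by omega) (by omega)
  refine h1.trans ?_
  set W' : Set (ℤ × ℤ) := {s | s.2 = 1 ∨ s.1 = 1 ∨ s.2 = n + 3} with hW'
  set D' := Rsq (-n - 1) 1 1 (n + 3) with hD'
  have hRx : ∀ x ∈ Ev D' ∪ {((-n - 1, y) : ℤ × ℤ)}, 1 ≤ x.2 := by
    rintro x (hx | hx)
    · obtain ⟨b, hb, k1, k2, k3⟩ := mem_Ev_iff.1 hx
      have := mem_Rsq.1 hb
      omega
    · rw [Set.mem_singleton_iff] at hx
      rw [hx]
      exact hy1.le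
  have h2 : pr Q n (n + 3) (-n - 1, y) ≤
      mm pa pb (fun _ => Q) (Q ^ 2) D' W' W' {((-n - 1, y) : ℤ × ℤ)} := by
    refine mm_shrink pa pb (fun _ => hQ) (pow_pos hQ 2) (pow_le_one' hQ hQ1) ?_
      (Ev D' ∪ {((-n - 1, y) : ℤ × ℤ)}) (fun x hx => Or.inl (mem_ends_iff.1 hx))
      (fun x hx => Or.inr hx) ?_ ?_
    · intro b hb
      rw [mem_Rn]
      rw [hD', mem_Rsq] at hb
      omega
    · intro x hx h
      have := hRx x hx
      have h3 : x.2 = 0 := h.1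
      omega
    · intro e he he'
      rw [mem_Rn] at he
      rw [hD', mem_Rsq] at he'
      have key : ∀ x, (x = pa e ∨ x = pb e) → x ∈ Ev D' ∪ {((-n - 1, y) : ℤ × ℤ)} →
          x ∈ W' := by
        intro x h1 h2
        obtain ⟨k1, k2, k3⟩ := co_iff.1 h1
        have := hRx x h2
        exact Or.inl (by omega)
      exact ⟨key _ (Or.inl rfl), key _ (Or.inr rfl)⟩
  refine h2.trans_eq ?_
  refine mm_DP (σ := sw (-n - 1) (n + 2)) (τ := sw (-n - 1) (n + 2)) hQ (sy_sw _ _) (by omega)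
    ?_ ?_ ?_ ?_
  · intro b
    simp only [sw, Equiv.coe_fn_mk, mem_Rn, hD', mem_Rsq]
    omega
  · intro x
    simp only [sw, Equiv.coe_fn_mk, hW', Wn, Set.mem_ofPred_eq]
    omega
  · intro x
    simp only [sw, Equiv.coe_fn_mk, hW', Wn, Set.mem_ofPred_eq]
    omega
  · rintro ⟨x1, x2⟩
    simp only [sw, Equiv.coe_fn_mk, Set.mem_singleton_iff, Prod.mk.injEq]
    omega

theorem Sl_le (hQ : 0 < Q) (hQ1 : Q ≤ 1) (hn : n % 2 = 0) (hn0 : 0 ≤ n) :
    Sl Q n (n + 2) ≤ 1 + Lm Q n (n + 2) := by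
  obtain ⟨f, hf⟩ : ∃ f : ℤ ↪ ℤ, ∀ z, f z = z + (n + 2) :=
    ⟨⟨fun z => z + (n + 2), fun x y h => by simpa using h⟩, fun _ => rfl⟩
  have e : (Finset.Ioo 0 (n + 2)).filter (fun y => Odd y) =
      insert 1 (((Finset.Ioo (-n) 0).filter (fun y => Odd y)).map f) := by
    ext y
    rw [mem_fo, mem_insert, mem_map]
    constructor
    · intro h
      by_cases h1 : y = 1
      · exact Or.inl h1
      · refine Or.inr ⟨y - (n + 2), mem_fo.2 (by omega), by rw [hf]; ring⟩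
    · rintro (h | ⟨z, hz, h⟩)
      · omega
      · rw [mem_fo] at hz
        rw [hf] at h
        omega
  have e1 : (1 : ℤ) ∉ ((Finset.Ioo (-n) 0).filter (fun y => Odd y)).map f := by
    rw [mem_map]
    rintro ⟨z, hz, h⟩
    rw [mem_fo] at hz
    rw [hf] at h
    omega
  rw [Sl, e, sum_insert e1, sum_map]
  refine add_le_add (pr_le_one hQ _) (sum_le_sum fun z hz => ?_)
  rw [mem_fo] at hz
  rw [hf]
  have h := pr_le_dr hQ hQ1 hn hn0 (y := z + (n + 2)) (by omega) (by omega) (by omega)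
  have e2 : z + (n + 2) - n - 2 = z := by ring
  rwa [e2] at h

/-- **The bound for the lower side.** -/
theorem Lm_le (hQ : 0 < Q) (hQ1 : Q ≤ 1) (hn : n % 2 = 0) (hn0 : 0 ≤ n) :
    (1 - Q) * (1 + Lm Q n (n + 2)) ≤ Tp Q n (n + 2) := by
  have h1 := pf_mm hQ (by linarith) hn hn0 (H := n + 2) (by omega) (by omega)
  have h2 := mul_le_mul_of_nonneg_left (Sl_le hQ hQ1 hn hn0) hQ.le
  linarith

end Vale.Agent.P167.H997
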