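import Vale.Agent.P167.H997.E1a
import Vale.Agent.P167.H816.Stop

/-!
# P167, RSW for `q < 1`: exploration from the right side

`explore`: `Ac x0 x1 h`: no dual crossing between the right and the left side of `[x0, x1] × [0, h]`.
-/

set_option autoImplicit false
set_option linter.unusedSectionVars false

namespace Vale.Agent.P167.H997

open Finset Vale.Agent.P167.FK Vale.Agent.P167.H816 Vale.Agent.P167.H262
open Vale.Agent.P145.FB (PStep PConn)
open Relation (ReflTransGen)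

variable {Q : ℝ} {x0 x1 h H y : ℤ}

/-- The open squares of `D`. -/
noncomputable def Sf (D : Finset (ℤ × ℤ)) (ω : Cfg) : Finset (ℤ × ℤ) := D.filter fun v => ω v = true

theorem mem_Sf {D : Finset (ℤ × ℤ)} {ω : Cfg} {v : ℤ × ℤ} : v ∈ Sf D ω ↔ v ∈ D ∧ ω v = true := by
  unfold Sf
  rw [mem_filter]

theorem Sf_subset {D : Finset (ℤ × ℤ)} {ω : Cfg} : Sf D ω ⊆ D := filter_subset _ _

/-- The dual cluster of the right side. -/
noncomputable def Kf (x0 x1 h : ℤ) (ω : Cfg) : Set (ℤ × ℤ) :=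
  KK da db (Rsq x0 x1 0 h) (sdX 1 x1 0 h) (Sf (Rsq x0 x1 0 h) ω)

/-- The unexplored squares. -/
noncomputable def Uf (x0 x1 h : ℤ) (ω : Cfg) : Finset (ℤ × ℤ) :=
  UU da db (Rsq x0 x1 0 h) (sdX 1 x1 0 h) (sdX 1 x0 0 h) (Sf (Rsq x0 x1 0 h) ω)

/-- The dual cluster of the right side misses the left side. -/
def Ac (x0 x1 h : ℤ) : Set Cfg := {ω | ∀ l ∈ sdX 1 x0 0 h, l ∉ Kf x0 x1 h ω}

theorem Ac_anti {h' : ℤ} (hh : h ≤ h') : Ac x0 x1 h' ⊆ Ac x0 x1 h := by
  rintro ω hω l ⟨h1, h2, h3, h4⟩ ⟨r, ⟨k1, k2, k3, k4⟩, hc⟩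
  refine hω l ⟨h1, h2, by omega, h4⟩ ⟨r, ⟨k1, k2, by omega, k4⟩, con_mono da db le_rfl ?_ hc⟩
  intro e he
  rw [mem_sdiff, mem_Sf, mem_Rsq] at he ⊢
  refine ⟨by omega, fun h5 => he.2 ⟨by omega, h5.2⟩⟩

theorem Pr_congr_out {D : Finset (ℤ × ℤ)} {η η' : Cfg} (hη : ∀ v, v ∉ D → η v = η' v)
    (A : Set Cfg) : Pr Q D η A = Pr Q D η' A := by
  have h : ∀ S, cf D η S = cf D η' S := by
    intro S
    funext v
    by_cases hv : v ∈ D
    · simp [cf, hv]
    · simp [cf, hv, hη v hv]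
  unfold Pr Ex Zq
  simp only [h]

theorem Kf_self {ω ω' : Cfg} (hω : ∀ v, v ∉ Uf x0 x1 h ω ∪ Rsq x0 x1 h H → ω v = ω' v) :
    Kf x0 x1 h ω' = Kf x0 x1 h ω := by
  refine KK_self (S4 := sdX 1 x0 0 h) fun e he heU => ?_
  have h1 : e ∉ Uf x0 x1 h ω ∪ Rsq x0 x1 h H := by
    rw [mem_union]
    rintro (h1 | h1)
    · exact heU h1
    · rw [mem_Rsq] at he h1
      omega
  rw [mem_Sf, mem_Sf, hω e h1]

theorem Uf_self {ω ω' : Cfg} (hω : ∀ v, v ∉ Uf x0 x1 h ω ∪ Rsq x0 x1 h H → ω v = ω' v) :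
    Uf x0 x1 h ω' = Uf x0 x1 h ω := by
  refine UU_self fun e he heU => ?_
  have h1 : e ∉ Uf x0 x1 h ω ∪ Rsq x0 x1 h H := by
    rw [mem_union]
    rintro (h1 | h1)
    · exact heU h1
    · rw [mem_Rsq] at he h1
      omega
  rw [mem_Sf, mem_Sf, hω e h1]

theorem con_PC {ω : Cfg} {G : Finset (ℤ × ℤ)} (hG : ∀ e ∈ G, ω e = true) {z x : ℤ × ℤ}
    (hc : con pa pb ⊥ G z x) : PC ω z x := by
  refine (con_induct (fun t => PC ω z t) (fun e he => ?_) hc).1 ReflTransGen.refl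
  have h1 : PC ω (pa e) (pb e) := ReflTransGen.single (step_ab (hG e he))
  exact ⟨fun h => h.trans h1, fun h => h.trans (PC_symm h1)⟩

/-- **Exploration from the right side.** -/
theorem explore_aux (hQ : 0 < Q) (hQ1 : Q ≤ 1) (hx : x0 < x1) (hh : h ≤ H) (hy : 0 < y)
    (hyh : y ≤ h) (hpar : (x0 + y) % 2 = 0) {W0 : Set (ℤ × ℤ)} (hW0 : W0 ⊆ sdX 0 x1 0 h)
    {S : Finset (ℤ × ℤ)} {ω : Cfg}
    (hω : ω = cf (Rsq x0 x1 0 H) (sx x0 x1 H (Rsq x0 x1 (-1) 0)) S) (hA : ω ∈ Ac x0 x1 h) :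
    mm pa pb (fun _ => Q) (Q ^ 2) (Rsq x0 x1 0 h) W0 W0 {(x0, y)} ≤
      Pr Q (Uf x0 x1 h ω ∪ Rsq x0 x1 h H) ω {ω | PC ω (x0 - 1, y - 1) (x0, y)} := by
  set Lo := Rsq x0 x1 0 h with hLo
  set S2 := sdX 1 x1 0 h with hS2
  set S4 := sdX 1 x0 0 h with hS4
  set T := Sf Lo ω with hT
  set K := KK da db Lo S2 T with hK
  set N := NN da db Lo S4 K with hN
  set U := Uf x0 x1 h ω with hU
  have hUe : U = UU da db Lo S2 S4 T := rfl
  set G := T \ U with hG
  set B := sdY 0 0 x0 x1 with hB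
  set W : Set (ℤ × ℤ) := {x | ∃ z ∈ B, con pa pb ⊥ G z x} with hW
  have hTL : T ⊆ Lo := Sf_subset
  have hUL : U ⊆ Lo := UU_subset _
  have hA' : ∀ l ∈ S4, l ∉ K := hA
  -- boundary squares
  have f1 : ∀ b ∈ Lo, b ∉ U → (da b ∈ N ∨ db b ∈ N) → Bdr da db Lo S2 S4 T b := by
    intro b hb hbU hn
    refine ⟨hb, ?_⟩
    rcases hn with hn | hn
    · right
      refine ⟨?_, hn⟩
      by_contra h1
      exact hbU (mem_UU.2 ⟨hb, hn, (NN_closed hb (NN_disj hn) h1).1 hn⟩)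
    · left
      refine ⟨?_, hn⟩
      by_contra h1
      exact hbU (mem_UU.2 ⟨hb, (NN_closed hb h1 (NN_disj hn)).2 hn, hn⟩)
  have f2 : ∀ b, Bdr da db Lo S2 S4 T b → b ∈ G := fun b hb => mem_sdiff.2 ⟨hb.open, hb.notU⟩
  have f5 : ∀ b, Bdr da db Lo S2 S4 T b → ∀ x, (x = pa b ∨ x = pb b) → x ∈ W := by
    intro b hb x hxb
    have h1 := contact (quad_BT (x0 := x0) (x1 := x1) (y0 := 0) (y1 := h) hx.le (by omega)) hTL
      hA' hb
    rcases hxb with rfl | rfl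
    · exact h1.1
    · exact h1.2
  have f3 : ∀ b ∈ Lo, b.1 = x0 → b ∉ U → Bdr da db Lo S2 S4 T b := by
    intro b hb hb1 hbU
    have hbL := mem_Rsq.1 hb
    obtain ⟨z, hz, hz'⟩ := exists_odd b.2 x0
    have h1 : ((x0, z) : ℤ × ℤ) ∈ S4 := ⟨rfl, by simp only; omega, by simp only; omega, by
      simp only; omega⟩
    have h2 : ((x0, z) : ℤ × ℤ) ∈ N := mem_NN_of h1 (hA' _ h1)
    have h3 : ((x0, z) : ℤ × ℤ) = da b ∨ ((x0, z) : ℤ × ℤ) = db b :=
      do_iff.2 ⟨by simp only; omega, by simp only; omega, by simp only; omega⟩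
    refine f1 b hb hbU ?_
    rcases h3 with h3 | h3
    · left; rw [← h3]; exact h2
    · right; rw [← h3]; exact h2
  have f4 : ∀ s ∈ Od U, s ∈ N := by
    rintro s ⟨b, hb, hs⟩
    obtain ⟨-, h1, h2⟩ := mem_UU.1 hb
    rcases hs with rfl | rfl
    · exact h1
    · exact h2
  have f6 : ∀ x ∈ Ev U ∪ {((x0, y) : ℤ × ℤ)}, ∀ b ∈ Lo, b ∉ U → (x = pa b ∨ x = pb b) →
      x ∈ W := by
    rintro x (hxU | hxU) b hb hbU hxb
    · obtain ⟨b', hb', m1, m2, m3⟩ := mem_Ev_iff.1 hxU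
      obtain ⟨e, he, hxe⟩ := around_P (s := x) (b := b') (b' := b) m1 hb' hb hbU ⟨m2, m3⟩
        (co_iff.1 hxb).2
      exact f5 e he x hxe
    · rw [Set.mem_singleton_iff] at hxU
      obtain ⟨m1, m2, m3⟩ := co_iff.1 hxb
      rw [hxU] at m2
      have := mem_Rsq.1 hb
      simp only at m2
      exact f5 b (f3 b hb (by omega) hbU) x hxb
  -- the exterior
  set η' := sx x0 x1 H (Rsq x0 x1 (-1) 0 ∪ G) with hη'
  have hGL : ∀ b ∈ G, b ∈ Lo ∧ b ∉ U := fun b hb =>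
    ⟨hTL (mem_sdiff.1 hb).1, (mem_sdiff.1 hb).2⟩
  have e1 : Pr Q (U ∪ Rsq x0 x1 h H) ω {ω | PC ω (x0 - 1, y - 1) (x0, y)} =
      Pr Q (U ∪ Rsq x0 x1 h H) η' {ω | PC ω (x0 - 1, y - 1) (x0, y)} := by
    refine Pr_congr_out (fun v hv => ?_) _
    rw [mem_union, not_or] at hv
    by_cases hvL : v ∈ Lo
    · have hvL' := mem_Rsq.1 hvL
      have h1 : ω v = true ↔ η' v = true := by
        rw [hη', sx_true]
        constructor
        · intro h1
          exact Or.inr (mem_union_right _ (mem_sdiff.2 ⟨mem_Sf.2 ⟨hvL, h1⟩, hv.1⟩))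
        · rintro (h1 | h1)
          · exact absurd (by omega) h1
          · rcases mem_union.1 h1 with h1 | h1
            · have := mem_Rsq.1 h1
              omega
            · exact (mem_Sf.1 (mem_sdiff.1 h1).1).2
      exact Bool.eq_iff_iff.2 h1
    · have hvH : v ∉ Rsq x0 x1 0 H := by
        intro h1
        rw [mem_Rsq] at h1
        have h2 := hv.2
        rw [mem_Rsq] at h2
        rw [hLo, mem_Rsq] at hvL
        omega
      rw [hω, FKA.cf_out hvH]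
      have h1 : sx x0 x1 H (Rsq x0 x1 (-1) 0) v = true ↔ η' v = true := by
        rw [hη', sx_true, sx_true, mem_union]
        constructor
        · rintro (h1 | h1)
          · exact Or.inl h1
          · exact Or.inr (Or.inl h1)
        · rintro (h1 | h1 | h1)
          · exact Or.inl h1
          · exact Or.inr h1
          · exact absurd (hGL v h1).1 hvL
      exact Bool.eq_iff_iff.2 h1
  -- closing the upper part
  have e2 := t2_bottom hQ hQ1 hx hh (qa := y - 1) (by omega) (by omega) (by omega) (U := U)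
    (G := G) hUL hGL (fun b hb hb1 hbU => f2 b (f3 b hb hb1 hbU)) (fun b hb hbU hbG s hs hsU =>
      hbG (f2 b (f1 b hb hbU (by
        have h1 := f4 s hsU
        rcases hs with rfl | rfl
        · exact Or.inl h1
        · exact Or.inr h1))))
  rw [sub_add_cancel] at e2
  rw [e1]
  refine le_trans ?_ e2
  -- the root
  have hval : ∀ v, v ∉ U → v ∉ Rsq x0 x1 h H →
      cf (U ∪ Rsq x0 x1 h H) η' ∅ v = η' v := fun v h1 h2 => FKA.cf_out (by
        rw [mem_union, not_or]; exact ⟨h1, h2⟩)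
  have hUH : U ⊆ Rsq x0 x1 0 H := by
    intro b hb
    have := mem_Rsq.1 (hUL hb)
    exact mem_Rsq.2 (by omega)
  have e3 : Pr Q U (cf (U ∪ Rsq x0 x1 h H) η' ∅) {ω | PC ω (x0 - 1, y - 1) (x0, y)} =
      mm pa pb (fun _ => Q) (Q ^ 2) U W W {(x0, y)} := by
    refine sea_root hQ (qa := y - 1) (by omega) (good_cf _ good_sx _) hUH ?_
      (by simp only; omega) (by simp only; omega) ?_ ?_
    · intro v hv
      rw [hval v (fun h1 => hv (by have := mem_Rsq.1 (hUL h1); omega))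
        (fun h1 => hv (by have := mem_Rsq.1 h1; omega))]
      exact sx_true.2 (Or.inl hv)
    · rintro x _ ⟨z, hz, hc⟩
      set ξ := cf U (cf (U ∪ Rsq x0 x1 h H) η' ∅) ∅ with hξ
      have hGo : ∀ e ∈ G, ξ e = true := by
        intro e he
        obtain ⟨h1, h2⟩ := hGL e he
        rw [hξ, FKA.cf_out h2, hval e h2 fun h3 => by
          rw [mem_Rsq] at h3
          rw [hLo, mem_Rsq] at h1
          omega]
        exact sx_true.2 (Or.inr (mem_union_right _ he))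
      have hAo : ∀ i, x0 ≤ i → i < x1 → ξ (i, -1) = true := by
        intro i h1 h2
        rw [hξ, FKA.cf_out fun h3 => by have := mem_Rsq.1 (hUL h3); simp only at this; omega,
          hval _ (fun h3 => by have := mem_Rsq.1 (hUL h3); simp only at this; omega)
            (fun h3 => by have := mem_Rsq.1 h3; simp only at this; omega)]
        exact sx_true.2 (Or.inr (mem_union_left _ (mem_Rsq.2 (by simp only; omega))))
      obtain ⟨z', hz', h1⟩ := bot_sea hx hAo hz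
      exact ⟨z', Or.inr (Or.inr (Or.inl hz')), (PC_symm (con_PC hGo hc)).trans h1⟩
    · intro x hx' b hbU hb hbox hxb
      have hbUp : b ∉ Rsq x0 x1 h H := by
        intro h1
        simp [cf, h1] at hb
      rw [hval b hbU hbUp, hη', sx_true] at hb
      rcases mem_union.1 (hb.resolve_left fun h => h hbox) with h1 | h1
      · have h2 := mem_Rsq.1 h1
        obtain ⟨k1, k2, k3⟩ := co_iff.1 hxb
        have h3 : 0 ≤ x.2 := by
          rcases hx' with hx' | hx'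
          · obtain ⟨c, hc, m1, m2, m3⟩ := mem_Ev_iff.1 hx'
            have := mem_Rsq.1 (hUL hc)
            omega
          · rw [Set.mem_singleton_iff] at hx'
            rw [hx']
            exact hy.le
        exact ⟨x, ⟨by omega, by omega, by omega, k1⟩, (con pa pb ⊥ G).refl x⟩
      · exact f6 x hx' b (hGL b h1).1 hbU hxb
  rw [e3]
  -- the domain shrinks
  refine mm_shrink pa pb (fun _ => hQ) (pow_pos hQ 2) (pow_le_one' hQ hQ1) hUL
    (Ev U ∪ {((x0, y) : ℤ × ℤ)}) (fun x hx => Or.inl (mem_ends_iff.1 hx))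
    (fun x hx => Or.inr hx) ?_ ?_
  · rintro x (hxU | hxU) hxW
    · exfalso
      obtain ⟨h1, h2, h3, h4⟩ := hW0 hxW
      obtain ⟨b, hb, m1, m2, m3⟩ := mem_Ev_iff.1 hxU
      have hbL := mem_Rsq.1 (hUL hb)
      obtain ⟨z, hz, hz'⟩ := exists_odd b.2 x1
      have h5 : ((x1, z) : ℤ × ℤ) ∈ S2 := ⟨rfl, by simp only; omega, by simp only; omega, by
        simp only; omega⟩
      have h6 : ((x1, z) : ℤ × ℤ) ∈ K := mem_KK_of h5
      refine NN_disj (f4 _ (mem_Od_iff.2 ⟨b, hb, ?_, ?_, ?_⟩)) h6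
      · simp only; omega
      · simp only; omega
      · simp only; omega
    · exfalso
      rw [Set.mem_singleton_iff] at hxU
      have h1 := (hW0 hxW).1
      rw [hxU] at h1
      simp only at h1
      omega
  · intro e he heU
    exact ⟨fun h1 => f6 _ h1 e he heU (Or.inl rfl), fun h1 => f6 _ h1 e he heU (Or.inr rfl)⟩

/-- **Exploration from the right side.** -/
theorem explore (hQ : 0 < Q) (hQ1 : Q ≤ 1) (hx : x0 < x1) (hh : h ≤ H) (hy : 0 < y)
    (hyh : y ≤ h) (hpar : (x0 + y) % 2 = 0) {W0 : Set (ℤ × ℤ)} (hW0 : W0 ⊆ sdX 0 x1 0 h) :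
    mm pa pb (fun _ => Q) (Q ^ 2) (Rsq x0 x1 0 h) W0 W0 {(x0, y)} *
      Pr Q (Rsq x0 x1 0 H) (sx x0 x1 H (Rsq x0 x1 (-1) 0)) (Ac x0 x1 h) ≤
    mm pa pb (fun _ => Q) (Q ^ 2) (Rsq x0 x1 0 H) (sdY 0 0 x0 x1) (sdY 0 0 x0 x1) {(x0, y)} := by
  have h1 := stop_le (Q := Q) (D := Rsq x0 x1 0 H) (η := sx x0 x1 H (Rsq x0 x1 (-1) 0))
    (E := fun ω => Uf x0 x1 h ω ∪ Rsq x0 x1 h H) (A := Ac x0 x1 h)
    (F := {ω | PC ω (x0 - 1, y - 1) (x0, y)}) hQ good_sx ?_ ?_ ?_
    (fun S _ hS => explore_aux hQ hQ1 hx hh hy hyh hpar hW0 rfl hS)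
  · refine h1.trans ((FKA.Pr_mono hQ Set.inter_subset_right).trans_eq ?_)
    have h2 := root_bottom (Q := Q) hQ hx (le_refl H) (qa := y - 1) (by omega) (by omega)
      (by omega)
    rw [sub_add_cancel] at h2
    rw [← h2]
    unfold Pr
    rw [cf_empty_self]
  · intro ω b hb
    rcases mem_union.1 hb with hb | hb
    · have := mem_Rsq.1 (UU_subset _ hb)
      exact mem_Rsq.2 (by omega)
    · have := mem_Rsq.1 hb
      exact mem_Rsq.2 (by omega)
  · intro ω ω' hω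
    beta_reduce
    rw [Uf_self hω]
  · intro ω ω' hω
    have h2 := Kf_self hω
    unfold Ac
    rw [Set.mem_ofPred_eq, Set.mem_ofPred_eq, h2]

end Vale.Agent.P167.H997
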