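import Vale.Agent.P167.H997.Blk

/-!
# P167, RSW for `q < 1`: exploration from one side of a quadrilateral

`a`, `b` the ends of the edges, `a'`, `b'` the ends of the dual edges. `KK`: the dual sites joined to
`S2` by closed edges; `NN`: the dual sites joined to `S4` by edges without a corner in `KK`; `UU`: the
edges with both dual ends in `NN`. Everything outside of `UU` is revealed. `contact`: if `KK` misses
`S4`, the edges with one dual end in `KK` and the other one in `NN` are open and joined to `A1` by open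
edges outside of `UU`.
-/

set_option autoImplicit false
set_option linter.unusedSectionVars false

namespace Vale.Agent.P167.H997

open Finset Vale.Agent.P167.FK Vale.Agent.P167.H816 Vale.Agent.P167.H262
open Vale.Agent.P145.FB (PStep PConn)
open Vale.Agent.P167.H623 (join sup_join conf)
open Relation (ReflTransGen)

section abs

variable {X ι : Type*} [DecidableEq ι] (a b a' b' : ι → X) (D : Finset ι) (S2 S4 : Set X)

/-- The dual sites joined to `S2` by closed edges. -/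
def KK (S : Finset ι) : Set X := {x | ∃ r ∈ S2, con a' b' ⊥ (D \ S) r x}

open Classical in
/-- The dual sites joined to `S4` by edges without a corner in `K`. -/
def NN (K : Set X) : Set X :=
  {x | ∃ l ∈ S4, l ∉ K ∧ con a' b' ⊥ (D.filter fun e => a' e ∉ K ∧ b' e ∉ K) l x}

open Classical in
/-- The unexplored edges. -/
noncomputable def UU (S : Finset ι) : Finset ι :=
  D.filter fun e => a' e ∈ NN a' b' D S4 (KK a' b' D S2 S) ∧ b' e ∈ NN a' b' D S4 (KK a' b' D S2 S)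

variable {a b a' b' D S2 S4}

theorem UU_subset (S : Finset ι) : UU a' b' D S2 S4 S ⊆ D := by
  classical
  exact filter_subset _ _

theorem mem_UU {S : Finset ι} {e : ι} : e ∈ UU a' b' D S2 S4 S ↔ e ∈ D ∧
    a' e ∈ NN a' b' D S4 (KK a' b' D S2 S) ∧ b' e ∈ NN a' b' D S4 (KK a' b' D S2 S) := by
  classical
  unfold UU
  rw [mem_filter]

theorem con_edge_iff {T : Finset ι} {e : ι} (he : e ∈ T) (x : X) :
    con a' b' ⊥ T x (a' e) ↔ con a' b' ⊥ T x (b' e) :=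
  ⟨fun h => (con a' b' ⊥ T).trans h (con_edge a' b' ⊥ he),
    fun h => (con a' b' ⊥ T).trans h ((con a' b' ⊥ T).symm (con_edge a' b' ⊥ he))⟩

/-- Induction on connections. -/
theorem con_induct {T : Finset ι} (P : X → Prop)
    (hP : ∀ e ∈ T, (P (a' e) ↔ P (b' e))) {x y : X} (h : con a' b' ⊥ T x y) : P x ↔ P y := by
  have h1 : con a' b' ⊥ T ≤ (⟨fun x y => (P x ↔ P y), ⟨fun _ => Iff.rfl, Iff.symm, Iff.trans⟩⟩ :
      Setoid X) := by
    refine sup_le bot_le (Finset.sup_le fun e he => join_le_iff'.2 ?_)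
    exact hP e he
  exact h1 h

theorem KK_closed {S : Finset ι} {e : ι} (he : e ∈ D) (heS : e ∉ S) :
    a' e ∈ KK a' b' D S2 S ↔ b' e ∈ KK a' b' D S2 S := by
  have h : e ∈ D \ S := mem_sdiff.2 ⟨he, heS⟩
  constructor
  · rintro ⟨r, hr, h1⟩
    exact ⟨r, hr, (con_edge_iff h r).1 h1⟩
  · rintro ⟨r, hr, h1⟩
    exact ⟨r, hr, (con_edge_iff h r).2 h1⟩

theorem NN_closed {K : Set X} {e : ι} (he : e ∈ D) (h1 : a' e ∉ K) (h2 : b' e ∉ K) :
    a' e ∈ NN a' b' D S4 K ↔ b' e ∈ NN a' b' D S4 K := by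
  classical
  have h : e ∈ D.filter (fun e => a' e ∉ K ∧ b' e ∉ K) := mem_filter.2 ⟨he, h1, h2⟩
  constructor
  · rintro ⟨l, hl, hl', h3⟩
    exact ⟨l, hl, hl', (con_edge_iff h l).1 h3⟩
  · rintro ⟨l, hl, hl', h3⟩
    exact ⟨l, hl, hl', (con_edge_iff h l).2 h3⟩

theorem NN_disj {K : Set X} {x : X} (h : x ∈ NN a' b' D S4 K) : x ∉ K := by
  classical
  obtain ⟨l, -, hl, h1⟩ := h
  have h2 := con_induct (a' := a') (b' := b') (fun x => x ∉ K) (fun e he => by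
    obtain ⟨-, h3, h4⟩ := mem_filter.1 he
    exact ⟨fun _ => h4, fun _ => h3⟩) h1
  exact h2.1 hl

theorem mem_KK_of {S : Finset ι} {x : X} (h : x ∈ S2) : x ∈ KK a' b' D S2 S :=
  ⟨x, h, (con a' b' ⊥ _).refl x⟩

theorem mem_NN_of {K : Set X} {x : X} (h : x ∈ S4) (h' : x ∉ K) : x ∈ NN a' b' D S4 K := by
  classical
  exact ⟨x, h, h', (con a' b' ⊥ _).refl x⟩

/-- `KK` is determined by the configuration off `UU`. -/
theorem KK_self {S S' : Finset ι} (h : ∀ e ∈ D, e ∉ UU a' b' D S2 S4 S → (e ∈ S ↔ e ∈ S')) :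
    KK a' b' D S2 S' = KK a' b' D S2 S := by
  have hK : ∀ e ∈ D, (a' e ∈ KK a' b' D S2 S ∨ b' e ∈ KK a' b' D S2 S) →
      e ∉ UU a' b' D S2 S4 S := by
    intro e _ h1 h2
    rw [mem_UU] at h2
    rcases h1 with h1 | h1
    · exact NN_disj h2.2.1 h1
    · exact NN_disj h2.2.2 h1
  have sub1 : KK a' b' D S2 S' ⊆ KK a' b' D S2 S := by
    rintro x ⟨r, hr, h1⟩
    refine (con_induct (fun x => x ∈ KK a' b' D S2 S) (fun e he => ?_) h1).1 (mem_KK_of hr)
    obtain ⟨heD, heS'⟩ := mem_sdiff.1 he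
    constructor
    · intro h2
      exact (KK_closed heD fun h3 => heS' ((h e heD (hK e heD (Or.inl h2))).1 h3)).1 h2
    · intro h2
      exact (KK_closed heD fun h3 => heS' ((h e heD (hK e heD (Or.inr h2))).1 h3)).2 h2
  have sub2 : KK a' b' D S2 S ⊆ KK a' b' D S2 S' := by
    rintro x ⟨r, hr, h1⟩
    have h3 := con_induct (fun x => x ∈ KK a' b' D S2 S') (fun e he => ?_) h1
    · exact h3.1 (mem_KK_of hr)
    · obtain ⟨heD, heS⟩ := mem_sdiff.1 he
      constructor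
      · intro h2
        have h4 := h e heD (hK e heD (Or.inl (sub1 h2)))
        exact (KK_closed heD fun h5 => heS (h4.2 h5)).1 h2
      · intro h2
        have h4 := h e heD (hK e heD (Or.inr (sub1 h2)))
        exact (KK_closed heD fun h5 => heS (h4.2 h5)).2 h2
  exact Set.Subset.antisymm sub1 sub2

theorem UU_self {S S' : Finset ι} (h : ∀ e ∈ D, e ∉ UU a' b' D S2 S4 S → (e ∈ S ↔ e ∈ S')) :
    UU a' b' D S2 S4 S' = UU a' b' D S2 S4 S := by
  classical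
  unfold UU
  rw [KK_self h]

/-- A boundary edge. -/
def Bdr (a' b' : ι → X) (D : Finset ι) (S2 S4 : Set X) (S : Finset ι) (e : ι) : Prop :=
  e ∈ D ∧ ((a' e ∈ KK a' b' D S2 S ∧ b' e ∈ NN a' b' D S4 (KK a' b' D S2 S)) ∨
    (b' e ∈ KK a' b' D S2 S ∧ a' e ∈ NN a' b' D S4 (KK a' b' D S2 S)))

theorem Bdr.open {S : Finset ι} {e : ι} (h : Bdr a' b' D S2 S4 S e) : e ∈ S := by
  by_contra heS
  have h1 := KK_closed (a' := a') (b' := b') (S2 := S2) h.1 heS
  rcases h.2 with ⟨h2, h3⟩ | ⟨h2, h3⟩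
  · exact NN_disj h3 (h1.1 h2)
  · exact NN_disj h3 (h1.2 h2)

theorem Bdr.notU {S : Finset ι} {e : ι} (h : Bdr a' b' D S2 S4 S e) :
    e ∉ UU a' b' D S2 S4 S := by
  intro h1
  rw [mem_UU] at h1
  rcases h.2 with ⟨h2, -⟩ | ⟨h2, -⟩
  · exact NN_disj h1.2.1 h2
  · exact NN_disj h1.2.2 h2

variable (a b a' b' D S2 S4) in
/-- The planar duality of the quadrilateral. -/
def Quad (A1 A3 : Set X) : Prop := ∀ S ⊆ D, (∃ x ∈ A1, ∃ y ∈ A3, con a b ⊥ S x y) ↔
  ¬ ∃ r ∈ S2, ∃ l ∈ S4, con a' b' ⊥ (D \ S) r l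

/-- **The contact lemma.** -/
theorem contact {A1 A3 : Set X} (hq : Quad a b a' b' D S2 S4 A1 A3) {S : Finset ι} (hS : S ⊆ D)
    (hA : ∀ l ∈ S4, l ∉ KK a' b' D S2 S) {e : ι} (he : Bdr a' b' D S2 S4 S e) :
    (∃ x ∈ A1, con a b ⊥ (S \ UU a' b' D S2 S4 S) x (a e)) ∧
      ∃ x ∈ A1, con a b ⊥ (S \ UU a' b' D S2 S4 S) x (b e) := by
  classical
  set U := UU a' b' D S2 S4 S with hU
  set S0 := S \ U with hS0
  have heS0 : e ∈ S0 := mem_sdiff.2 ⟨he.open, he.notU⟩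
  suffices h : ∃ x ∈ A1, con a b ⊥ S0 x (a e) by
    refine ⟨h, ?_⟩
    obtain ⟨x, hx, h⟩ := h
    exact ⟨x, hx, (con_edge_iff heS0 x).1 h⟩
  have hS0D : S0 ⊆ D := sdiff_subset.trans hS
  have hK0 : KK a' b' D S2 S0 = KK a' b' D S2 S := by
    refine KK_self (S4 := S4) fun f _ hf => ?_
    rw [hS0, mem_sdiff]
    exact ⟨fun h => ⟨h, hf⟩, fun h => h.1⟩
  have h0 : ¬ ∃ r ∈ S2, ∃ l ∈ S4, con a' b' ⊥ (D \ S0) r l := by
    rintro ⟨r, hr, l, hl, h⟩
    refine hA l hl ?_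
    rw [← hK0]
    exact ⟨r, hr, h⟩
  obtain ⟨x, hx, y, hy, hxy⟩ := (hq S0 hS0D).2 h0
  by_contra hcon
  push Not at hcon
  -- remove the class of `e`
  set S1 := S0.filter (fun f => ¬ con a b ⊥ S0 (a e) (a f)) with hS1
  have hS1D : S1 ⊆ D := (filter_subset _ _).trans hS0D
  let P : Setoid X := ⟨fun z z' => con a b ⊥ S0 z z' ∧
      (con a b ⊥ S0 z (a e) ∨ con a b ⊥ S1 z z'), by
    refine ⟨fun z => ⟨(con a b ⊥ S0).refl z, Or.inr ((con a b ⊥ S1).refl z)⟩, ?_, ?_⟩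
    · rintro z z' ⟨h1, h2⟩
      refine ⟨(con a b ⊥ S0).symm h1, ?_⟩
      rcases h2 with h2 | h2
      · exact Or.inl ((con a b ⊥ S0).trans ((con a b ⊥ S0).symm h1) h2)
      · exact Or.inr ((con a b ⊥ S1).symm h2)
    · rintro z z' z'' ⟨h1, h2⟩ ⟨h3, h4⟩
      refine ⟨(con a b ⊥ S0).trans h1 h3, ?_⟩
      rcases h2 with h2 | h2
      · exact Or.inl h2
      · rcases h4 with h4 | h4
        · exact Or.inl ((con a b ⊥ S0).trans h1 h4)
        · exact Or.inr ((con a b ⊥ S1).trans h2 h4)⟩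
  have hP : con a b ⊥ S0 ≤ P := by
    refine sup_le bot_le (Finset.sup_le fun f hf => join_le_iff'.2 ?_)
    refine ⟨con_edge a b ⊥ hf, ?_⟩
    by_cases h : con a b ⊥ S0 (a e) (a f)
    · exact Or.inl ((con a b ⊥ S0).symm h)
    · exact Or.inr (con_edge a b ⊥ (mem_filter.2 ⟨hf, h⟩))
  have h1 : con a b ⊥ S1 x y := by
    rcases (hP hxy).2 with h | h
    · exact absurd h (hcon x hx)
    · exact h
  refine (hq S1 hS1D).1 ⟨x, hx, y, hy, h1⟩ ?_
  -- the dual connection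
  have heS1 : e ∉ S1 := by
    rw [hS1, mem_filter]
    exact fun h => h.2 ((con a b ⊥ S0).refl _)
  have heD1 : e ∈ D \ S1 := mem_sdiff.2 ⟨he.1, heS1⟩
  have hKc : ∀ z ∈ KK a' b' D S2 S, ∃ r ∈ S2, con a' b' ⊥ (D \ S1) r z := by
    rintro z ⟨r, hr, h⟩
    refine ⟨r, hr, con_mono a' b' le_rfl ?_ h⟩
    exact sdiff_subset_sdiff subset_rfl ((filter_subset _ _).trans sdiff_subset)
  have hNc : ∀ z ∈ NN a' b' D S4 (KK a' b' D S2 S), ∃ l ∈ S4, con a' b' ⊥ (D \ S1) l z := by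
    rintro z ⟨l, hl, hlK, h⟩
    refine ⟨l, hl, ?_⟩
    set K := KK a' b' D S2 S with hK
    set G := D.filter (fun e => a' e ∉ K ∧ b' e ∉ K) with hG
    let P : Setoid X := ⟨fun z z' => con a' b' ⊥ G z z' ∧
        (¬ con a' b' ⊥ G l z ∨ con a' b' ⊥ (D \ S1) z z'), by
      refine ⟨fun z => ⟨(con a' b' ⊥ G).refl z, Or.inr ((con a' b' ⊥ (D \ S1)).refl z)⟩, ?_, ?_⟩
      · rintro z z' ⟨h1, h2⟩
        refine ⟨(con a' b' ⊥ G).symm h1, ?_⟩
        rcases h2 with h2 | h2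
        · exact Or.inl fun h3 => h2 ((con a' b' ⊥ G).trans h3 ((con a' b' ⊥ G).symm h1))
        · exact Or.inr ((con a' b' ⊥ (D \ S1)).symm h2)
      · rintro z z' z'' ⟨h1, h2⟩ ⟨h3, h4⟩
        refine ⟨(con a' b' ⊥ G).trans h1 h3, ?_⟩
        rcases h2 with h2 | h2
        · exact Or.inl h2
        · rcases h4 with h4 | h4
          · exact Or.inl fun h5 => h4 ((con a' b' ⊥ G).trans h5 h1)
          · exact Or.inr ((con a' b' ⊥ (D \ S1)).trans h2 h4)⟩
    have hP : con a' b' ⊥ G ≤ P := by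
      refine sup_le bot_le (Finset.sup_le fun f hf => join_le_iff'.2 ?_)
      refine ⟨con_edge a' b' ⊥ hf, ?_⟩
      by_cases h : con a' b' ⊥ G l (a' f)
      · right
        refine con_edge a' b' ⊥ (mem_sdiff.2 ⟨(mem_filter.1 hf).1, fun h2 => ?_⟩)
        have h3 : f ∈ U := by
          rw [hU, mem_UU]
          exact ⟨(mem_filter.1 hf).1, ⟨l, hl, hlK, h⟩, ⟨l, hl, hlK, (con_edge_iff hf l).1 h⟩⟩
        exact (mem_sdiff.1 (mem_filter.1 h2).1).2 h3
      · exact Or.inl h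
    rcases (hP h).2 with h3 | h3
    · exact absurd ((con a' b' ⊥ G).refl l) h3
    · exact h3
  rcases he.2 with ⟨h2, h3⟩ | ⟨h2, h3⟩
  · obtain ⟨r, hr, h4⟩ := hKc _ h2
    obtain ⟨l, hl, h5⟩ := hNc _ h3
    exact ⟨r, hr, l, hl, (con a' b' ⊥ _).trans ((con_edge_iff heD1 r).1 h4)
      ((con a' b' ⊥ _).symm h5)⟩
  · obtain ⟨r, hr, h4⟩ := hKc _ h2
    obtain ⟨l, hl, h5⟩ := hNc _ h3
    exact ⟨r, hr, l, hl, (con a' b' ⊥ _).trans ((con_edge_iff heD1 r).2 h4)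
      ((con a' b' ⊥ _).symm h5)⟩

end abs

end Vale.Agent.P167.H997
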