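import Vale.Agent.P167.H997.Sm
import Vale.Agent.P167.H947.Q.Pf8

/-!
# P167, RSW for `q < 1`: the parafermionic identity in terms of `mm`

The rectangle `[-n-1, 1] × [0, H]`, `n` and `H` even, the even sites of the lower side wired.
-/

set_option autoImplicit false
set_option linter.unusedSectionVars false

namespace Vale.Agent.P167.H997

open Finset Vale.Agent.P167.FK Vale.Agent.P167.H816 Vale.Agent.P167.H262
open Vale.Agent.P145.FB (PStep PConn)
open Relation (ReflTransGen)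

/-- The rectangle. -/
noncomputable def Rn (n H : ℤ) : Finset (ℤ × ℤ) := Rsq (-n - 1) 1 0 H

/-- The even sites of the lower side. -/
def Bn (n : ℤ) : Set (ℤ × ℤ) := sdY 0 0 (-n - 1) 1

/-- The left, right and upper sides. -/
def Wn (n H : ℤ) : Set (ℤ × ℤ) := {s | s.1 = -n - 1 ∨ s.1 = 1 ∨ s.2 = H}

/-- Wired lower side. -/
noncomputable def pr (Q : ℝ) (n H : ℤ) (u : ℤ × ℤ) : ℝ :=
  mm pa pb (fun _ => Q) (Q ^ 2) (Rn n H) (Bn n) (Bn n) {u}

/-- Dually wired left, right, upper sides. -/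
noncomputable def dr (Q : ℝ) (n H : ℤ) (u : ℤ × ℤ) : ℝ :=
  mm da db (fun _ => Q) (Q ^ 2) (Rn n H) (Wn n H) (Wn n H) {u}

variable {Q : ℝ} {n H : ℤ}

theorem mem_Rn {b : ℤ × ℤ} : b ∈ Rn n H ↔ -n - 1 ≤ b.1 ∧ b.1 < 1 ∧ 0 ≤ b.2 ∧ b.2 < H := mem_Rsq

open Vale.Agent.P167.H947.Q in
theorem good_ea : Good (ea n) := by
  have e : ea n = cf ((Finset.Ico (-n) 0) ×ˢ {(-1 : ℤ)}) eta0 ((Finset.Ico (-n) 0) ×ˢ {(-1 : ℤ)}) := by
    funext v
    by_cases h : v ∈ (Finset.Ico (-n) 0) ×ˢ {(-1 : ℤ)}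
    · have h' := h
      rw [mem_product, mem_Ico, mem_singleton] at h'
      simp only [ea, cf, h, if_true]
      simp only [decide_true, decide_eq_true_eq]
      omega
    · have h' := h
      rw [mem_product, mem_Ico, mem_singleton] at h'
      simp only [ea, cf, h, if_false, eta0]
      simp only [decide_eq_false_iff_not]
      omega
  rw [e]
  exact good_cf _ good_eta0 _

open Vale.Agent.P167.H947.Q in
theorem Pp_eq {μ : ℝ} (hQ : Q = 2 * Real.cos μ) (hQ0 : 0 < Q) (hn : n % 2 = 0) (hn0 : 0 ≤ n)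
    (hH : 0 < H) {u : ℤ × ℤ} (hu : (u.1 + u.2) % 2 = 0)
    (huR : -n - 1 ≤ u.1 ∧ u.1 ≤ 1 ∧ 0 < u.2 ∧ u.2 ≤ H) :
    Pp μ (-n - 1) 1 H n u = pr Q n H u := by
  unfold Pp
  rw [← hQ]
  have e : {ω : Cfg | PC ω u (0, 0)} = {ω | PC ω (0, 0) u} := by
    ext ω
    exact ⟨PC_symm, PC_symm⟩
  rw [e]
  have hRx : ∀ x ∈ Ev (Rn n H) ∪ {u},
      (x.1 + x.2) % 2 = 0 ∧ -n - 1 ≤ x.1 ∧ x.1 ≤ 1 ∧ 0 ≤ x.2 ∧ x.2 ≤ H := by
    rintro x (hx | hx)
    · obtain ⟨b, hb, k1, k2, k3⟩ := mem_Ev_iff.1 hx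
      have := mem_Rn.1 hb
      omega
    · rw [Set.mem_singleton_iff] at hx
      rw [hx]
      omega
  have hv : ∀ v, v ∉ Rn n H → cf (Rn n H) (ea n) ∅ v = ea n v := fun v hv => FKA.cf_out hv
  refine Pr_root (D := Rn n H) hQ0 good_ea (Int.even_iff.2 hu) (by simp) (fun h => ?_) ?_ ?_
    (Or.inl ?_)
  · rw [h] at huR
    simp at huR
  · rintro ⟨i, j⟩ _ ⟨h1, h2, h3, h4⟩
    simp only at h1 h2 h3 h4
    subst h1
    by_cases hi : i = 0
    · rw [hi]; exact ReflTransGen.refl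
    · refine blockP (p0 := -n) (p1 := 0) (q0 := -1) (q1 := 0) (fun p q k1 k2 k3 k4 => ?_)
        (by omega) (by omega) (by simp only; omega) (by simp only; omega) (by simp only; omega)
      rw [hv _ fun h5 => by have := mem_Rn.1 h5; simp only at this; omega]
      simp only [ea, decide_eq_true_eq]
      omega
  · intro x hx y hxy
    by_cases hne : x = y
    · exact Or.inl hne
    right
    have hx' := hRx x hx
    obtain ⟨b, hb, hb'⟩ := first_step (Int.even_iff.2 hx'.1) hxy hne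
    rw [hv b (cf_true_out hb)] at hb
    simp only [ea, decide_eq_true_eq] at hb
    obtain ⟨k1, k2, k3⟩ := co_iff.1 hb'
    exact ⟨by omega, by omega, by omega, k1⟩
  · exact ⟨rfl, by simp only; omega, by simp only; omega, rfl⟩

open Vale.Agent.P167.H947.Q in
theorem Pd_eq {μ : ℝ} (hQ : Q = 2 * Real.cos μ) (hQ0 : 0 < Q) (hn : n % 2 = 0) (hn0 : 0 ≤ n)
    (hH : 0 < H) {y : ℤ} (hy : y % 2 = 1) (hy1 : -n < y) (hy2 : y < 0) :
    Pd μ (-n - 1) 1 H n (y, 0) = dr Q n H (y, 0) := by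
  unfold Pd
  rw [← hQ]
  have e : {ω : Cfg | DC ω (y, 0) (1, 0)} = {ω | DC ω (1, 0) (y, 0)} := by
    ext ω
    exact ⟨DC_symm, DC_symm⟩
  rw [e]
  have hRx : ∀ x ∈ Od (Rn n H) ∪ {((y, 0) : ℤ × ℤ)},
      (x.1 + x.2) % 2 = 1 ∧ -n - 1 ≤ x.1 ∧ x.1 ≤ 1 ∧ 0 ≤ x.2 ∧ x.2 ≤ H := by
    rintro x (hx | hx)
    · obtain ⟨b, hb, k1, k2, k3⟩ := mem_Od_iff.1 hx
      have := mem_Rn.1 hb
      omega
    · rw [Set.mem_singleton_iff] at hx
      rw [hx]
      simp only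
      omega
  have hv : ∀ v, v ∉ Rn n H → cf (Rn n H) (ea n) (Rn n H) v = ea n v := fun v hv => FKA.cf_out hv
  refine Pr_root_dual (D := Rn n H) hQ0 good_ea (Int.odd_iff.2 (by simp only; omega)) (by simp)
    (fun h => ?_) ?_ ?_ (Or.inl ?_)
  · rw [Prod.mk.injEq] at h
    omega
  · intro x hx hxW
    have hx' := hRx x hx
    refine dual_sea (a := -n - 1) (b := 0) (c := -1) (d := H - 1) (fun v hv1 => ?_)
      (Int.odd_iff.2 hx'.1) (by simp) ?_ (by simp)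
    · rw [hv v fun h5 => by have := mem_Rn.1 h5; omega]
      simp only [ea, decide_eq_false_iff_not]
      omega
    · rcases hxW with h | h | h
      · exact Or.inl h.le
      · right; left; omega
      · right; right; right; omega
  · intro x hx z hxz
    by_cases hne : x = z
    · exact Or.inl hne
    right
    have hx' := hRx x hx
    obtain ⟨b, hb, hb'⟩ := first_step_dual (Int.odd_iff.2 hx'.1) hxz hne
    have hbR := cf_false_out hb
    rw [hv b hbR] at hb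
    rw [mem_Rn] at hbR
    simp only [ea, decide_eq_false_iff_not] at hb
    obtain ⟨k1, k2, k3⟩ := do_iff.1 hb'
    show x.1 = -n - 1 ∨ x.1 = 1 ∨ x.2 = H
    omega
  · exact Or.inr (Or.inl rfl)

/-- Reflection. -/
theorem pr_refl (hQ : 0 < Q) (hn : n % 2 = 0) (y : ℤ) : pr Q n H (1, y) = pr Q n H (-n - 1, y) := by
  unfold pr
  refine mm_PP (σ := rx (-n)) (τ := rx (-n - 1)) hQ (sy_rx (-n)) (by omega) ?_ ?_ ?_ ?_
  · intro b
    simp only [rx, Equiv.coe_fn_mk, mem_Rn]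
    omega
  · intro x
    simp only [rx, Equiv.coe_fn_mk, Bn, sdY, Set.mem_ofPred_eq]
    omega
  · intro x
    simp only [rx, Equiv.coe_fn_mk, Bn, sdY, Set.mem_ofPred_eq]
    omega
  · rintro ⟨x1, x2⟩
    simp only [rx, Equiv.coe_fn_mk, Set.mem_singleton_iff, Prod.mk.injEq]
    omega

/-- The sum of the left side. -/
noncomputable def Sl (Q : ℝ) (n H : ℤ) : ℝ :=
  ∑ y ∈ (Finset.Ioo 0 H).filter (fun y => Odd y), pr Q n H (-n - 1, y)

/-- The sum of the upper side. -/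
noncomputable def Tp (Q : ℝ) (n H : ℤ) : ℝ :=
  ∑ x ∈ (Finset.Ioo (-n - 1) 1).filter (fun x => Even x), pr Q n H (x, H)

/-- The sum of the lower side, dual. -/
noncomputable def Lm (Q : ℝ) (n H : ℤ) : ℝ :=
  ∑ y ∈ (Finset.Ioo (-n) 0).filter (fun y => Odd y), dr Q n H (y, 0)

/-- **The parafermionic identity.** -/
theorem pf_mm (hQ : 0 < Q) (hQ2 : Q < 2) (hn : n % 2 = 0) (hn0 : 0 ≤ n) (hH : H % 2 = 0)
    (hH0 : 0 < H) : 1 + Lm Q n H = Tp Q n H + Q * Sl Q n H := by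
  set μ := Real.arccos (Q / 2) with hμ
  have hc : Real.cos μ = Q / 2 := Real.cos_arccos (by linarith) (by linarith)
  have hQμ : Q = 2 * Real.cos μ := by rw [hc]; ring
  have hμ0 : 0 < μ := Real.arccos_pos.2 (by linarith)
  have hμ1 : μ < Real.pi / 2 := Real.arccos_lt_pi_div_two.2 (by linarith)
  have h := Vale.Agent.P167.H947.Q.pfi μ (-n - 1) 1 H n hμ0 hμ1
    (Int.odd_iff.2 (by omega)) odd_one (Int.even_iff.2 hH) (Int.even_iff.2 hn) hn0 (by omega)
    one_pos hH0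
  have e1 : ∑ y ∈ (Finset.Ioo (-n) 0).filter (fun y => Odd y),
      Vale.Agent.P167.H947.Q.Pd μ (-n - 1) 1 H n (y, 0) = Lm Q n H := by
    refine sum_congr rfl fun y hy => ?_
    rw [Vale.Agent.P167.H947.Q.mem_fo] at hy
    exact Pd_eq hQμ hQ hn hn0 hH0 hy.2.2 hy.1 hy.2.1
  have e2 : ∑ x ∈ (Finset.Ioo (-n - 1) 1).filter (fun x => Even x),
      Vale.Agent.P167.H947.Q.Pp μ (-n - 1) 1 H n (x, H) = Tp Q n H := by
    refine sum_congr rfl fun x hx => ?_
    rw [Vale.Agent.P167.H947.Q.mem_fe] at hx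
    exact Pp_eq hQμ hQ hn hn0 hH0 (by simp only; omega) (by simp only; omega)
  have e3 : ∑ y ∈ (Finset.Ioo 0 H).filter (fun y => Odd y),
      (Vale.Agent.P167.H947.Q.Pp μ (-n - 1) 1 H n (-n - 1, y) +
        Vale.Agent.P167.H947.Q.Pp μ (-n - 1) 1 H n (1, y)) = 2 * Sl Q n H := by
    rw [Sl, mul_sum]
    refine sum_congr rfl fun y hy => ?_
    rw [Vale.Agent.P167.H947.Q.mem_fo] at hy
    rw [Pp_eq hQμ hQ hn hn0 hH0 (by simp only; omega) (by simp only; omega),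
      Pp_eq hQμ hQ hn hn0 hH0 (by simp only; omega) (by simp only; omega), pr_refl hQ hn]
    ring
  have e4 : ((Finset.Ioo (-n - 1) (-n)) ∪ (Finset.Ioo 0 (1 : ℤ))).filter (fun x => Even x) = ∅ := by
    ext x
    simp only [mem_filter, mem_union, mem_Ioo, notMem_empty, iff_false]
    omega
  rw [e1, e2, e3, e4, sum_empty, mul_zero, add_zero, hc] at h
  rw [h]
  ring

end Vale.Agent.P167.H997
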