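import Vale.Agent.P167.H997.T2
import Vale.Agent.P167.H816.Sy

/-!
# P167, RSW for `q < 1`: symmetries of `mm`, dual root class

`mm_PP`, `mm_DP`: symmetries of the square lattice which preserve (exchange) the even and the odd sites.
`Pr_root_dual`: the dual form of `Pr_root`. `dual_sea`: closed squares outside of a rectangle.
-/

set_option autoImplicit false
set_option linter.unusedSectionVars false

namespace Vale.Agent.P167.H997

open Finset Vale.Agent.P167.FK Vale.Agent.P167.H816 Vale.Agent.P167.H262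
open Vale.Agent.P145.FB (PStep PConn)
open Vale.Agent.P167.H623 (join sup_join conf)
open Relation (ReflTransGen)

variable {Q : ℝ} {D D' : Finset (ℤ × ℤ)} {η : Cfg}

/-! ### Symmetries -/

/-- `σ` on the sites, `τ` on the squares, the parity is shifted by `κ`. -/
structure Sy (κ : ℤ) (σ τ : ℤ × ℤ ≃ ℤ × ℤ) : Prop where
  par : ∀ s : ℤ × ℤ, ((σ s).1 + (σ s).2) % 2 = (s.1 + s.2 + κ) % 2
  cor : ∀ s b : ℤ × ℤ, (s.1 = b.1 ∨ s.1 = b.1 + 1) → (s.2 = b.2 ∨ s.2 = b.2 + 1) →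
    ((σ s).1 = (τ b).1 ∨ (σ s).1 = (τ b).1 + 1) ∧ ((σ s).2 = (τ b).2 ∨ (σ s).2 = (τ b).2 + 1)

theorem ends_of {f g f' g' : ℤ × ℤ → ℤ × ℤ} {σ τ : ℤ × ℤ ≃ ℤ × ℤ} {e : ℤ × ℤ}
    (h1 : σ (f e) = f' (τ e) ∨ σ (f e) = g' (τ e)) (h2 : σ (g e) = f' (τ e) ∨ σ (g e) = g' (τ e))
    (hne : f e ≠ g e) : (f' (τ e) = σ (f e) ∧ g' (τ e) = σ (g e)) ∨
      (f' (τ e) = σ (g e) ∧ g' (τ e) = σ (f e)) := by
  rcases h1 with h1 | h1 <;> rcases h2 with h2 | h2
  · exact absurd (σ.injective (h1.trans h2.symm)) hne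
  · exact Or.inl ⟨h1.symm, h2.symm⟩
  · exact Or.inr ⟨h2.symm, h1.symm⟩
  · exact absurd (σ.injective (h1.trans h2.symm)) hne

theorem pa_ne_pb (e : ℤ × ℤ) : pa e ≠ pb e := by
  intro h
  have := congrArg Prod.fst h
  obtain ⟨p, q⟩ := e
  rcases (by omega : (p + q) % 2 = 0 ∨ (p + q) % 2 = 1) with h1 | h1
  · obtain ⟨k1, k2, -, -⟩ := corners_even p q h1
    rw [k1, k2] at this
    simp at this
  · obtain ⟨k1, k2, -, -⟩ := corners_odd p q h1
    rw [k1, k2] at this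
    simp at this

theorem da_ne_db (e : ℤ × ℤ) : da e ≠ db e := by
  intro h
  have := congrArg Prod.fst h
  obtain ⟨p, q⟩ := e
  rcases (by omega : (p + q) % 2 = 0 ∨ (p + q) % 2 = 1) with h1 | h1
  · obtain ⟨-, -, k1, k2⟩ := corners_even p q h1
    rw [k1, k2] at this
    simp at this
  · obtain ⟨-, -, k1, k2⟩ := corners_odd p q h1
    rw [k1, k2] at this
    simp at this

theorem mm_map {a b a' b' : ℤ × ℤ → ℤ × ℤ} {σ τ : ℤ × ℤ ≃ ℤ × ℤ} {q : ℝ} (hQ : 0 < Q) (hq : 0 < q)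
    (hends : ∀ e ∈ D, (a' (τ e) = σ (a e) ∧ b' (τ e) = σ (b e)) ∨
      (a' (τ e) = σ (b e) ∧ b' (τ e) = σ (a e))) (Z A B : Set (ℤ × ℤ)) :
    mm a' b' (fun _ => Q) q (D.map τ.toEmbedding) Z A B =
      mm a b (fun _ => Q) q D (σ ⁻¹' Z) (σ ⁻¹' A) (σ ⁻¹' B) := by
  have h : H816.Symm a b a' b' D (wir (σ ⁻¹' Z)) (wir Z) τ σ := ⟨hends, fun x y => by
    constructor
    · rintro (h | h)
      · exact Or.inl (σ.injective h)
      · exact Or.inr h
    · rintro (h | h)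
      · exact Or.inl (congrArg σ h)
      · exact Or.inr h⟩
  have h0 : H816.Symm a b a' b' D ⊥ ⊥ τ σ :=
    ⟨hends, fun x y => ⟨fun h => σ.injective h, fun h => congrArg σ h⟩⟩
  unfold mm
  rw [GP_symm h (w := fun _ => Q) (w' := fun _ => Q) (fun _ _ => rfl) (fun _ => hQ) hq]
  refine GP_congr _ _ _ hq (fun _ _ _ _ => Iff.rfl) fun S hS => not_congr ?_
  constructor
  · intro h1 t ht x hx hc
    exact h1 (σ t) ht (σ x) hx ((h0.con_iff hS t x).2 hc)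
  · intro h1 t ht x hx hc
    obtain ⟨t', rfl⟩ := σ.surjective t
    obtain ⟨x', rfl⟩ := σ.surjective x
    exact h1 t' ht x' hx ((h0.con_iff hS t' x').1 hc)

theorem map_eq_of {τ : ℤ × ℤ ≃ ℤ × ℤ} (hD : ∀ b, τ b ∈ D' ↔ b ∈ D) :
    D' = D.map τ.toEmbedding := by
  ext b
  obtain ⟨c, rfl⟩ := τ.surjective b
  rw [hD, mem_map]
  constructor
  · exact fun h => ⟨c, h, rfl⟩
  · rintro ⟨d, hd, h⟩
    rwa [← τ.injective h]

theorem preim_of {σ : ℤ × ℤ ≃ ℤ × ℤ} {Z Z' : Set (ℤ × ℤ)} (hZ : ∀ x, σ x ∈ Z' ↔ x ∈ Z) :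
    σ ⁻¹' Z' = Z := by
  ext x
  exact hZ x

/-- Symmetries which preserve the parity. -/
theorem mm_PP {κ : ℤ} {σ τ : ℤ × ℤ ≃ ℤ × ℤ} (hQ : 0 < Q) (h : Sy κ σ τ) (hκ : κ % 2 = 0)
    (hD : ∀ b, τ b ∈ D' ↔ b ∈ D) {Z A B Z' A' B' : Set (ℤ × ℤ)} (hZ : ∀ x, σ x ∈ Z' ↔ x ∈ Z)
    (hA : ∀ x, σ x ∈ A' ↔ x ∈ A) (hB : ∀ x, σ x ∈ B' ↔ x ∈ B) :
    mm pa pb (fun _ => Q) (Q ^ 2) D' Z' A' B' = mm pa pb (fun _ => Q) (Q ^ 2) D Z A B := by
  rw [map_eq_of hD, mm_map (a := pa) (b := pb) (σ := σ) hQ (pow_pos hQ 2), preim_of hZ,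
    preim_of hA, preim_of hB]
  intro e _
  obtain ⟨h1, h2, h3⟩ := co_iff.1 (Or.inl rfl : pa e = pa e ∨ pa e = pb e)
  obtain ⟨k1, k2, k3⟩ := co_iff.1 (Or.inr rfl : pb e = pa e ∨ pb e = pb e)
  refine ends_of (co_iff.2 ⟨?_, h.cor _ _ h2 h3⟩) (co_iff.2 ⟨?_, h.cor _ _ k2 k3⟩) (pa_ne_pb e)
  · rw [h.par]; omega
  · rw [h.par]; omega

/-- Symmetries which exchange the parity. -/
theorem mm_DP {κ : ℤ} {σ τ : ℤ × ℤ ≃ ℤ × ℤ} (hQ : 0 < Q) (h : Sy κ σ τ) (hκ : κ % 2 = 1)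
    (hD : ∀ b, τ b ∈ D' ↔ b ∈ D) {Z A B Z' A' B' : Set (ℤ × ℤ)} (hZ : ∀ x, σ x ∈ Z' ↔ x ∈ Z)
    (hA : ∀ x, σ x ∈ A' ↔ x ∈ A) (hB : ∀ x, σ x ∈ B' ↔ x ∈ B) :
    mm pa pb (fun _ => Q) (Q ^ 2) D' Z' A' B' = mm da db (fun _ => Q) (Q ^ 2) D Z A B := by
  rw [map_eq_of hD, mm_map (a := da) (b := db) (σ := σ) hQ (pow_pos hQ 2), preim_of hZ,
    preim_of hA, preim_of hB]
  intro e _
  obtain ⟨h1, h2, h3⟩ := do_iff.1 (Or.inl rfl : da e = da e ∨ da e = db e)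
  obtain ⟨k1, k2, k3⟩ := do_iff.1 (Or.inr rfl : db e = da e ∨ db e = db e)
  refine ends_of (co_iff.2 ⟨?_, h.cor _ _ h2 h3⟩) (co_iff.2 ⟨?_, h.cor _ _ k2 k3⟩) (da_ne_db e)
  · rw [h.par]; omega
  · rw [h.par]; omega

/-- Translation. -/
def tr (c d : ℤ) : ℤ × ℤ ≃ ℤ × ℤ where
  toFun s := (s.1 + c, s.2 + d)
  invFun s := (s.1 - c, s.2 - d)
  left_inv s := by simp
  right_inv s := by simp

/-- Reflection of the first coordinate. -/
def rx (c : ℤ) : ℤ × ℤ ≃ ℤ × ℤ where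
  toFun s := (c - s.1, s.2)
  invFun s := (c - s.1, s.2)
  left_inv s := by simp
  right_inv s := by simp

/-- Reflection of the second coordinate. -/
def ry (c : ℤ) : ℤ × ℤ ≃ ℤ × ℤ where
  toFun s := (s.1, c - s.2)
  invFun s := (s.1, c - s.2)
  left_inv s := by simp
  right_inv s := by simp

/-- Exchange of the coordinates and translation. -/
def sw (c d : ℤ) : ℤ × ℤ ≃ ℤ × ℤ where
  toFun s := (s.2 + c, s.1 + d)
  invFun s := (s.2 - d, s.1 - c)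
  left_inv s := by simp
  right_inv s := by simp

/-- The other diagonal reflection. -/
def aw (c d : ℤ) : ℤ × ℤ ≃ ℤ × ℤ where
  toFun s := (c - s.2, d - s.1)
  invFun s := (d - s.2, c - s.1)
  left_inv s := by simp
  right_inv s := by simp

theorem sy_tr (c d : ℤ) : Sy (c + d) (tr c d) (tr c d) where
  par s := by simp only [tr, Equiv.coe_fn_mk]; omega
  cor s b h1 h2 := by simp only [tr, Equiv.coe_fn_mk]; omega

theorem sy_rx (c : ℤ) : Sy c (rx c) (rx (c - 1)) where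
  par s := by simp only [rx, Equiv.coe_fn_mk]; omega
  cor s b h1 h2 := by simp only [rx, Equiv.coe_fn_mk]; omega

theorem sy_ry (c : ℤ) : Sy c (ry c) (ry (c - 1)) where
  par s := by simp only [ry, Equiv.coe_fn_mk]; omega
  cor s b h1 h2 := by simp only [ry, Equiv.coe_fn_mk]; omega

theorem sy_sw (c d : ℤ) : Sy (c + d) (sw c d) (sw c d) where
  par s := by simp only [sw, Equiv.coe_fn_mk]; omega
  cor s b h1 h2 := by simp only [sw, Equiv.coe_fn_mk]; omega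

theorem sy_aw (c d : ℤ) : Sy (c + d) (aw c d) (aw (c - 1) (d - 1)) where
  par s := by simp only [aw, Equiv.coe_fn_mk]; omega
  cor s b h1 h2 := by simp only [aw, Equiv.coe_fn_mk]; omega

/-! ### The dual root class -/

theorem mem_ends_iff' {x : ℤ × ℤ} : x ∈ ends da db D ↔ x ∈ Od D := mem_ends da db D

theorem Pr_DC (hQ : 0 < Q) (hη : Good η) {v u : ℤ × ℤ} (hv : Odd (v.1 + v.2)) :
    Pr Q D η {ω | DC ω v u} = GP da db (fun _ => Q) (Q ^ 2) D (DCs (cf D η D))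
      (fun S => con da db (DCs (cf D η D)) S v u) := by
  rw [Pr_eq_GP_dual hQ hη]
  exact GP_congr da db D (pow_pos hQ 2) (fun _ _ _ _ => Iff.rfl) fun S hS => DC_cf hS hv

/-- **One root class**, dual form. -/
theorem Pr_root_dual (hQ : 0 < Q) (hη : Good η) {u v : ℤ × ℤ} (hu : Odd (u.1 + u.2))
    (hv : Odd (v.1 + v.2)) (huv : u ≠ v) {W : Set (ℤ × ℤ)}
    (h1 : ∀ x ∈ Od D ∪ {u}, x ∈ W → DC (cf D η D) x v)
    (h2 : ∀ x ∈ Od D ∪ {u}, ∀ y, DC (cf D η D) x y → x = y ∨ x ∈ W) (hvW : v ∈ W ∨ v ∉ Od D) :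
    Pr Q D η {ω | DC ω v u} = mm da db (fun _ => Q) (Q ^ 2) D W W {u} := by
  have e1 : mm da db (fun _ => Q) (Q ^ 2) D W W {u} =
      mm da db (fun _ => Q) (Q ^ 2) D (insert v W) (insert v W) {u} := by
    refine mm_congr da db D (pow_pos hQ 2) (Y := Od D ∪ {u})
      (fun x hx => Or.inl (mem_ends_iff'.1 hx)) (fun x hx => Or.inr hx) ?_ ?_ <;>
    · intro x hx
      refine ⟨fun h => Or.inr h, ?_⟩
      rintro (h | h)
      · subst h
        rcases hvW with h | h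
        · exact h
        · rcases hx with hx | hx
          · exact absurd hx h
          · exact absurd hx.symm huv
      · exact h
  rw [e1, Pr_DC hQ hη hv, mm]
  set W' : Set (ℤ × ℤ) := insert v W with hW'
  have hrel : ∀ x ∈ Od D ∪ {u, v}, ∀ y ∈ Od D ∪ {u, v}, (DCs (cf D η D) x y ↔ wir W' x y) := by
    have g1 : ∀ x ∈ Od D ∪ {u, v}, x ∈ W' → DC (cf D η D) x v := by
      rintro x hx (h | h)
      · rw [h]; exact ReflTransGen.refl
      · rcases hx with hx | hx | hx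
        · exact h1 x (Or.inl hx) h
        · exact h1 x (Or.inr hx) h
        · rw [Set.mem_singleton_iff] at hx
          rw [hx]; exact ReflTransGen.refl
    have g2 : ∀ x ∈ Od D ∪ {u, v}, ∀ y, DC (cf D η D) x y → x = y ∨ x ∈ W' := by
      rintro x hx y h
      rcases hx with hx | hx | hx
      · exact (h2 x (Or.inl hx) y h).imp id fun h => Or.inr h
      · exact (h2 x (Or.inr hx) y h).imp id fun h => Or.inr h
      · rw [Set.mem_singleton_iff] at hx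
        exact Or.inr (Or.inl hx)
    have hev' : ∀ x ∈ Od D ∪ {u, v}, Odd (x.1 + x.2) := by
      rintro x (hx | hx | hx)
      · exact odd_Od hx
      · rw [hx]; exact hu
      · rw [Set.mem_singleton_iff] at hx
        rw [hx]; exact hv
    intro x hx y hy
    rw [DCs_iff (hev' x hx)]
    constructor
    · intro h
      by_cases hxy : x = y
      · exact Or.inl hxy
      · refine Or.inr ⟨(g2 x hx y h).resolve_left hxy,
          (g2 y hy x (DC_symm h)).resolve_left (Ne.symm hxy)⟩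
    · rintro (h | ⟨h, h'⟩)
      · rw [h]; exact ReflTransGen.refl
      · exact (g1 x hx h).trans (DC_symm (g1 y hy h'))
  refine GP_congr da db D (pow_pos hQ 2) (fun x hx y hy => ?_) fun S hS => ?_
  · exact hrel x (Or.inl (mem_ends_iff'.1 hx)) y (Or.inl (mem_ends_iff'.1 hy))
  · have hc := con_congr da db (S := S) (Y := Od D ∪ {u, v})
      (fun e he => ⟨Or.inl (mem_ends_iff'.1 (fst_mem_ends da db D (hS he))),
        Or.inl (mem_ends_iff'.1 (snd_mem_ends da db D (hS he)))⟩) hrel v (Or.inr (Or.inr rfl)) u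
        (Or.inr (Or.inl rfl))
    rw [hc, con_wir_iff da db (Or.inl rfl : v ∈ W')]
    unfold H816.Sep
    push Not
    constructor
    · rintro ⟨z, hz, h⟩
      exact ⟨z, hz, u, rfl, h⟩
    · rintro ⟨z, hz, x, hx, h⟩
      rw [Set.mem_singleton_iff] at hx
      rw [hx] at h
      exact ⟨z, hz, h⟩

/-- Closed squares outside of a rectangle. -/
theorem dual_sea {ξ : Cfg} {a b c d : ℤ}
    (hξ : ∀ v : ℤ × ℤ, (v.1 < a ∨ b < v.1 ∨ v.2 < c ∨ d < v.2) → ξ v = false) {z w : ℤ × ℤ}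
    (hz : Odd (z.1 + z.2)) (hw : Odd (w.1 + w.2))
    (hzo : z.1 ≤ a ∨ b < z.1 ∨ z.2 ≤ c ∨ d < z.2)
    (hwo : w.1 ≤ a ∨ b < w.1 ∨ w.2 ≤ c ∨ d < w.2) : DC ξ z w := by
  rw [← PC_du]
  rw [Int.odd_iff] at hz hw
  refine FKA.outside_conn (F := op (du ξ)) (a := a + 1) (b := b + 1) (c := c) (d := d)
    (fun v hv => ?_) ?_ ?_ ?_ ?_
  · show du ξ v = true
    unfold du
    rw [hξ (v.1 - 1, v.2) (by simp only; omega)]
    rfl
  · rw [Int.even_iff]; simp only; omega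
  · rw [Int.even_iff]; simp only; omega
  · simp only; omega
  · simp only; omega

end Vale.Agent.P167.H997
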