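import Vale.Agent.P167.H997.Rect

/-!
# P167, RSW for `q < 1`: closing the squares of the upper part of a rectangle

`0 < Q ≤ 1`. The root of the open cluster is the lower side (`grow_top`, `t2_bottom`) or the lower part
of the right side (`grow_win`); the site `(x0, y)` on the left side. The probability that they are joined
increases when the rectangle grows at the top.
-/

set_option autoImplicit false
set_option linter.unusedSectionVars false

namespace Vale.Agent.P167.H997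

open Finset Vale.Agent.P167.FK Vale.Agent.P167.H816 Vale.Agent.P167.H262
open Vale.Agent.P145.FB (PStep PConn)
open Vale.Agent.P167.H623 (join sup_join conf)
open Relation (ReflTransGen)

variable {Q : ℝ} {D E : Finset (ℤ × ℤ)} {η : Cfg}

/-- Closing the squares of `D \ E`. -/
theorem bk_star' (hQ : 0 < Q) (hQ1 : Q ≤ 1) (hη : Good η) (hED : E ⊆ D) {a : ℤ × ℤ} (haD : a ∉ D)
    (haη : η a = false) {χ : Cfg} (hχ : χ = cf E (Function.update (cf D η ∅) a true) E)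
    (hdis : ¬ DC χ (da a) (db a))
    (hst : ∀ b, b ∉ E → b ≠ a → (b ∈ D ∨ η b = false) → ∀ s, (s = da b ∨ s = db b) → s ∈ Od E →
      DC χ s (da a) ∨ DC χ s (db a)) :
    Pr Q E (cf D η ∅) {ω | PC ω (pa a) (pb a)} ≤ Pr Q D η {ω | PC ω (pa a) (pb a)} := by
  subst hχ
  set χ := cf E (Function.update (cf D η ∅) a true) E with hχ
  refine bk_star hQ hQ1 hη (good_cf D hη ∅) hED haD haη (by simp [cf, haD, haη])
    (U := {s | DC χ s (da a)}) (V := {s | DC χ s (db a)}) ?_ ReflTransGen.refl ReflTransGen.refl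
    ?_ (fun s hs _ => hs) (fun s hs _ => hs) ?_
  · rw [Set.disjoint_left]
    intro s h1 h2
    exact hdis ((DC_symm h1).trans h2)
  · intro b hb hba h
    have hc : χ b = false := by
      rw [hχ, FKA.cf_out hb, Function.update_of_ne hba]
      by_cases hbD : b ∈ D
      · simp [cf, hbD]
      · rw [FKA.cf_out hbD]
        exact h.resolve_left hbD
    have hd : DC χ (da b) (db b) := ReflTransGen.single (dstep_ab hc)
    exact ⟨⟨fun h => (DC_symm hd).trans h, fun h => hd.trans h⟩,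
      ⟨fun h => (DC_symm hd).trans h, fun h => hd.trans h⟩,
      fun h' => hst b hb hba h _ (Or.inl rfl) h', fun h' => hst b hb hba h _ (Or.inr rfl) h'⟩
  · intro b hb hba h s hs hsE
    refine hst b hb hba ?_ s hs hsE
    by_cases hbD : b ∈ D
    · exact Or.inl hbD
    · right
      rwa [FKA.cf_out hbD] at h

/-- The box closed except for `A`, everything outside is open. -/
noncomputable def sx (x0 x1 H : ℤ) (A : Finset (ℤ × ℤ)) : Cfg :=
  cf (Rsq (x0 - 1) (x1 + 1) (-1) (H + 1)) eta1 A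

section sx

variable {x0 x1 h H qa : ℤ} {A : Finset (ℤ × ℤ)}

theorem good_sx : Good (sx x0 x1 H A) := good_cf _ good_eta1 _

theorem sx_true {v : ℤ × ℤ} : sx x0 x1 H A v = true ↔
    ¬ (x0 - 1 ≤ v.1 ∧ v.1 ≤ x1 ∧ -1 ≤ v.2 ∧ v.2 ≤ H) ∨ v ∈ A := by
  unfold sx
  by_cases h : v ∈ Rsq (x0 - 1) (x1 + 1) (-1) (H + 1)
  · have h' := mem_Rsq.1 h
    have e : cf (Rsq (x0 - 1) (x1 + 1) (-1) (H + 1)) eta1 A v = decide (v ∈ A) := by
      simp only [cf, h, if_true]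
    rw [e, decide_eq_true_eq]
    constructor
    · exact Or.inr
    · rintro (h1 | h1)
      · exact absurd (by omega) h1
      · exact h1
  · have h' : ¬ (x0 - 1 ≤ v.1 ∧ v.1 ≤ x1 ∧ -1 ≤ v.2 ∧ v.2 ≤ H) := by
      intro h1
      exact h (mem_Rsq.2 (by omega))
    rw [FKA.cf_out h]
    simp only [eta1, true_iff]
    exact Or.inl h'

theorem sx_false {v : ℤ × ℤ} : sx x0 x1 H A v = false ↔
    (x0 - 1 ≤ v.1 ∧ v.1 ≤ x1 ∧ -1 ≤ v.2 ∧ v.2 ≤ H) ∧ v ∉ A := by
  rw [← Bool.not_eq_true, sx_true]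
  push Not
  exact Iff.rfl

theorem exists_odd (x y : ℤ) : ∃ z, (z = x ∨ z = x + 1) ∧ (z + y) % 2 = 1 := by
  rcases (by omega : (x + y) % 2 = 0 ∨ (x + y) % 2 = 1) with h | h
  · exact ⟨x + 1, Or.inr rfl, by omega⟩
  · exact ⟨x, Or.inl rfl, h⟩

/-- The root is the lower side. The unexplored region `U` in the lower part, `G` open squares. -/
theorem t2_bottom (hQ : 0 < Q) (hQ1 : Q ≤ 1) (hx : x0 < x1) (hh : h ≤ H) (hq0 : 0 ≤ qa)
    (hqh : qa < h) (hpar : (x0 - 1 + qa) % 2 = 0) {U G : Finset (ℤ × ℤ)} (hU : U ⊆ Rsq x0 x1 0 h)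
    (hG1 : ∀ b ∈ G, b ∈ Rsq x0 x1 0 h ∧ b ∉ U)
    (hG2 : ∀ b ∈ Rsq x0 x1 0 h, b.1 = x0 → b ∉ U → b ∈ G)
    (hG3 : ∀ b ∈ Rsq x0 x1 0 h, b ∉ U → b ∉ G → ∀ s, (s = da b ∨ s = db b) → s ∉ Od U) :
    Pr Q U (cf (U ∪ Rsq x0 x1 h H) (sx x0 x1 H (Rsq x0 x1 (-1) 0 ∪ G)) ∅)
        {ω | PC ω (x0 - 1, qa) (x0, qa + 1)} ≤
      Pr Q (U ∪ Rsq x0 x1 h H) (sx x0 x1 H (Rsq x0 x1 (-1) 0 ∪ G))
        {ω | PC ω (x0 - 1, qa) (x0, qa + 1)} := by
  obtain ⟨c1, c2, c3, c4⟩ := corners_even (x0 - 1) qa hpar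
  rw [sub_add_cancel] at c2 c4
  set A : Finset (ℤ × ℤ) := Rsq x0 x1 (-1) 0 ∪ G with hA
  set η := sx x0 x1 H A with hη
  set D := U ∪ Rsq x0 x1 h H with hD
  set χ := cf U (Function.update (cf D η ∅) (x0 - 1, qa) true) U with hχ
  have haD : ((x0 - 1, qa) : ℤ × ℤ) ∉ D := by
    rw [hD, mem_union]
    rintro (h1 | h1)
    · have := mem_Rsq.1 (hU h1)
      simp only at this
      omega
    · have := mem_Rsq.1 h1
      simp only at this
      omega
  have haη : η (x0 - 1, qa) = false := by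
    rw [hη, sx_false]
    refine ⟨by simp only; omega, ?_⟩
    rw [hA, mem_union]
    rintro (h1 | h1)
    · have := mem_Rsq.1 h1
      simp only at this
      omega
    · have := mem_Rsq.1 (hG1 _ h1).1
      simp only at this
      omega
  -- closed squares of `χ`
  have hcl : ∀ p q : ℤ, x0 - 1 ≤ p → p ≤ x1 → -1 ≤ q → q ≤ H → ¬ (x0 ≤ p ∧ p < x1 ∧ q < h) →
      ¬ (p = x0 - 1 ∧ q = qa) → χ (p, q) = false := by
    intro p q h1 h2 h3 h4 h5 h6
    have e1 : (p, q) ∉ U := fun h7 => by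
      have := mem_Rsq.1 (hU h7)
      simp only at this
      omega
    have e2 : ((p, q) : ℤ × ℤ) ≠ (x0 - 1, qa) := fun h7 => by
      rw [Prod.mk.injEq] at h7
      exact h6 h7
    have e3 : (p, q) ∉ A := by
      rw [hA, mem_union]
      rintro (h7 | h7)
      · have := mem_Rsq.1 h7
        simp only at this
        omega
      · have := mem_Rsq.1 (hG1 _ h7).1
        simp only at this
        omega
    rw [hχ, FKA.cf_out e1, Function.update_of_ne e2]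
    by_cases h7 : (p, q) ∈ D
    · simp [cf, h7]
    · rw [FKA.cf_out h7]
      exact sx_false.2 ⟨⟨h1, h2, h3, h4⟩, e3⟩
  have hcc : ∀ b : ℤ × ℤ, χ b = false → b ∉ U ∧ b ≠ (x0 - 1, qa) ∧
      (x0 - 1 ≤ b.1 ∧ b.1 ≤ x1 ∧ -1 ≤ b.2 ∧ b.2 ≤ H) ∧
      (x0 ≤ b.1 → b.1 < x1 → b.2 < h → 0 ≤ b.2 ∧ b ∉ G) := by
    intro b hb
    have e1 : b ∉ U := fun h7 => by simp [hχ, cf, h7] at hb
    rw [hχ, FKA.cf_out e1] at hb
    have e2 : b ≠ (x0 - 1, qa) := by
      rintro rfl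
      simp at hb
    rw [Function.update_of_ne e2] at hb
    by_cases h7 : b ∈ Rsq x0 x1 h H
    · have := mem_Rsq.1 h7
      refine ⟨e1, e2, by omega, fun _ _ h8 => absurd h8 (by omega)⟩
    · have e3 : b ∉ D := by
        rw [hD, mem_union]
        tauto
      rw [FKA.cf_out e3] at hb
      obtain ⟨h8, h9⟩ := sx_false.1 hb
      refine ⟨e1, e2, h8, fun k1 k2 k3 => ⟨?_, fun k4 => h9 (mem_union_right _ k4)⟩⟩
      by_contra k4
      exact h9 (mem_union_left _ (mem_Rsq.2 (by omega)))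
  have hdis : ¬ DC χ (da (x0 - 1, qa)) (db (x0 - 1, qa)) := by
    intro hd
    have key := path_closed_dual (ω := χ)
      (U := {s : ℤ × ℤ | x0 - 1 ≤ s.1 ∧ s.1 ≤ x0 ∧ -1 ≤ s.2 ∧ s.2 ≤ qa}) ?_ (odd_db _)
      (DC_symm hd) ?_
    · rw [c3] at key
      simp only [Set.mem_ofPred_eq] at key
      omega
    · rintro ⟨p, q⟩ hb
      obtain ⟨h1, h2, h3, h4⟩ := hcc _ hb
      simp only at h3 h4
      have h5 : p = x0 → h ≤ q := by
        intro h6
        by_contra h7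
        obtain ⟨h8, h9⟩ := h4 (by omega) (by omega) (by omega)
        exact h9 (hG2 (p, q) (mem_Rsq.2 (by simp only; omega)) h6 h1)
      have h6 : ¬ (p = x0 - 1 ∧ q = qa) := fun h7 => h2 (by rw [h7.1, h7.2])
      rcases (by omega : (p + q) % 2 = 0 ∨ (p + q) % 2 = 1) with hpq | hpq
      · obtain ⟨-, -, k1, k2⟩ := corners_even p q hpq
        rw [k1, k2]
        simp only [Set.mem_ofPred_eq]
        omega
      · obtain ⟨-, -, k1, k2⟩ := corners_odd p q hpq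
        rw [k1, k2]
        simp only [Set.mem_ofPred_eq]
        omega
    · rw [c4]
      simp only [Set.mem_ofPred_eq]
      omega
  have main := bk_star' hQ hQ1 (good_sx (x0 := x0) (x1 := x1) (H := H) (A := A))
    (subset_union_left : U ⊆ D) haD haη hχ hdis ?_
  · rw [c1, c2] at main
    exact main
  intro b hbU hba hb s hs hsU
  rw [c3, c4]
  obtain ⟨s3, s1, s2⟩ := do_iff.1 hs
  obtain ⟨e, he, -, e1, e2⟩ := mem_Od_iff.1 hsU
  have hsR := mem_Rsq.1 (hU he)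
  have UL : ∀ t : ℤ × ℤ, x0 - 1 ≤ t.1 → t.1 ≤ x0 → qa + 1 ≤ t.2 → t.2 ≤ H + 1 →
      (t.1 + t.2) % 2 = 1 → DC χ t (x0 - 1, qa + 1) := by
    intro t h1 h2 h3 h4 h5
    exact blockD (p0 := x0 - 1) (p1 := x0) (q0 := qa + 1) (q1 := H + 1)
      (fun p q k1 k2 k3 k4 => hcl p q k1 (by omega) (by omega) (by omega) (by omega) (by omega))
      (by omega) (by omega) ⟨h1, h2, h3, h4⟩ (by simp only; omega) (by simp only; omega)
  have TR : ∀ t : ℤ × ℤ, x0 - 1 ≤ t.1 → t.1 ≤ x1 + 1 → H ≤ t.2 → t.2 ≤ H + 1 →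
      (t.1 + t.2) % 2 = 1 → DC χ t (x0 - 1, qa + 1) := by
    intro t h1 h2 h3 h4 h5
    obtain ⟨z, hz, hz'⟩ := exists_odd (x0 - 1) H
    refine (blockD (p0 := x0 - 1) (p1 := x1 + 1) (q0 := H) (q1 := H + 1) (t := (z, H))
      (fun p q k1 k2 k3 k4 => hcl p q k1 (by omega) (by omega) (by omega) (by omega) (by omega))
      (by omega) (by omega) ⟨h1, h2, h3, h4⟩ (by simp only; omega) (by simp only; omega)).trans ?_
    exact UL (z, H) (by simp only; omega) (by simp only; omega) (by simp only; omega)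
      (by simp only; omega) hz'
  have RC : ∀ t : ℤ × ℤ, x1 ≤ t.1 → t.1 ≤ x1 + 1 → -1 ≤ t.2 → t.2 ≤ H + 1 →
      (t.1 + t.2) % 2 = 1 → DC χ t (x0 - 1, qa + 1) := by
    intro t h1 h2 h3 h4 h5
    obtain ⟨z, hz, hz'⟩ := exists_odd x1 H
    refine (blockD (p0 := x1) (p1 := x1 + 1) (q0 := -1) (q1 := H + 1) (t := (z, H))
      (fun p q k1 k2 k3 k4 => hcl p q (by omega) (by omega) k3 (by omega) (by omega) (by omega))
      (by omega) (by omega) ⟨h1, h2, h3, h4⟩ (by simp only; omega) (by simp only; omega)).trans ?_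
    exact TR (z, H) (by simp only; omega) (by simp only; omega) (by simp only; omega)
      (by simp only; omega) hz'
  have UP : h < H → ∀ t : ℤ × ℤ, x0 ≤ t.1 → t.1 ≤ x1 → h ≤ t.2 → t.2 ≤ H →
      (t.1 + t.2) % 2 = 1 → DC χ t (x0 - 1, qa + 1) := by
    intro hlt t h1 h2 h3 h4 h5
    obtain ⟨z, hz, hz'⟩ := exists_odd h x0
    refine (blockD (p0 := x0) (p1 := x1) (q0 := h) (q1 := H) (t := (x0, z))
      (fun p q k1 k2 k3 k4 => hcl p q (by omega) (by omega) (by omega) (by omega) (by omega)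
        (by omega))
      (by omega) (by omega) ⟨h1, h2, h3, h4⟩ (by simp only; omega) (by simp only; omega)).trans ?_
    exact UL (x0, z) (by simp only; omega) (by simp only; omega) (by simp only; omega)
      (by simp only; omega) (by simp only; omega)
  by_cases hs0 : s.1 = x0
  · by_cases hsq : s.2 ≤ qa
    · right
      exact blockD (p0 := x0 - 1) (p1 := x0) (q0 := -1) (q1 := qa)
        (fun p q k1 k2 k3 k4 => hcl p q k1 (by omega) (by omega) (by omega) (by omega) (by omega))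
        (by omega) (by omega) (by omega) (by simp only; omega) (by simp only; omega)
    · left
      exact UL s (by omega) (by omega) (by omega) (by omega) s3
  · left
    by_cases hs1 : s.1 = x1
    · exact RC s (by omega) (by omega) (by omega) (by omega) s3
    · have hbh : h ≤ b.2 := by
        rcases hb with hb | hb
        · have := mem_Rsq.1 ((mem_union.1 hb).resolve_left hbU)
          omega
        · obtain ⟨k1, k2⟩ := sx_false.1 hb
          rw [hA, mem_union, not_or] at k2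
          by_contra k3
          by_cases k4 : b.2 < 0
          · exact k2.1 (mem_Rsq.2 (by omega))
          · exact hG3 b (mem_Rsq.2 (by omega)) hbU k2.2 s hs hsU
      rcases hh.lt_or_eq with hlt | heq
      · exact UP hlt s (by omega) (by omega) (by omega) (by omega) s3
      · exact TR s (by omega) (by omega) (by omega) (by omega) s3

/-- The root is the lower part of the right side. -/
theorem t2_window (hQ : 0 < Q) (hQ1 : Q ≤ 1) (hx : x0 < x1) (hh : h ≤ H) (hq0 : 0 ≤ qa)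
    (hqh : qa < h) (hpar : (x0 - 1 + qa) % 2 = 0) :
    Pr Q (Rsq x0 x1 0 h) (cf (Rsq x0 x1 0 H) (sx x0 x1 H (Rsq x1 (x1 + 1) 0 h)) ∅)
        {ω | PC ω (x0 - 1, qa) (x0, qa + 1)} ≤
      Pr Q (Rsq x0 x1 0 H) (sx x0 x1 H (Rsq x1 (x1 + 1) 0 h))
        {ω | PC ω (x0 - 1, qa) (x0, qa + 1)} := by
  obtain ⟨c1, c2, c3, c4⟩ := corners_even (x0 - 1) qa hpar
  rw [sub_add_cancel] at c2 c4
  set U := Rsq x0 x1 0 h with hUe
  set A : Finset (ℤ × ℤ) := Rsq x1 (x1 + 1) 0 h with hA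
  set η := sx x0 x1 H A with hη
  set D := Rsq x0 x1 0 H with hD
  set χ := cf U (Function.update (cf D η ∅) (x0 - 1, qa) true) U with hχ
  have hUD : U ⊆ D := by
    intro b hb
    have := mem_Rsq.1 hb
    exact mem_Rsq.2 (by omega)
  have haD : ((x0 - 1, qa) : ℤ × ℤ) ∉ D := by
    intro h1
    have := mem_Rsq.1 h1
    simp only at this
    omega
  have haη : η (x0 - 1, qa) = false := by
    rw [hη, sx_false]
    refine ⟨by simp only; omega, fun h1 => ?_⟩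
    have := mem_Rsq.1 h1
    simp only at this
    omega
  -- closed squares of `χ`
  have hcl : ∀ p q : ℤ, x0 - 1 ≤ p → p ≤ x1 → -1 ≤ q → q ≤ H → ¬ (x0 ≤ p ∧ 0 ≤ q ∧ q < h) →
      ¬ (p = x0 - 1 ∧ q = qa) → χ (p, q) = false := by
    intro p q h1 h2 h3 h4 h5 h6
    have e1 : (p, q) ∉ U := fun h7 => by
      have := mem_Rsq.1 h7
      simp only at this
      omega
    have e2 : ((p, q) : ℤ × ℤ) ≠ (x0 - 1, qa) := fun h7 => by
      rw [Prod.mk.injEq] at h7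
      exact h6 h7
    have e3 : (p, q) ∉ A := by
      intro h7
      have := mem_Rsq.1 h7
      simp only at this
      omega
    rw [hχ, FKA.cf_out e1, Function.update_of_ne e2]
    by_cases h7 : (p, q) ∈ D
    · simp [cf, h7]
    · rw [FKA.cf_out h7]
      exact sx_false.2 ⟨⟨h1, h2, h3, h4⟩, e3⟩
  have hcc : ∀ b : ℤ × ℤ, χ b = false → b ≠ (x0 - 1, qa) ∧
      (x0 - 1 ≤ b.1 ∧ b.1 ≤ x1 ∧ -1 ≤ b.2 ∧ b.2 ≤ H) ∧ (x0 ≤ b.1 → 0 ≤ b.2 → h ≤ b.2) := by
    intro b hb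
    have e1 : b ∉ U := fun h7 => by simp [hχ, cf, h7] at hb
    rw [hχ, FKA.cf_out e1] at hb
    have e2 : b ≠ (x0 - 1, qa) := by
      rintro rfl
      simp at hb
    rw [Function.update_of_ne e2] at hb
    by_cases e3 : b ∈ D
    · have := mem_Rsq.1 e3
      refine ⟨e2, by omega, fun _ _ => ?_⟩
      by_contra h8
      exact e1 (mem_Rsq.2 (by omega))
    · rw [FKA.cf_out e3] at hb
      obtain ⟨h8, h9⟩ := sx_false.1 hb
      refine ⟨e2, h8, fun k1 k2 => ?_⟩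
      by_contra k4
      by_cases k5 : b.1 < x1
      · exact e1 (mem_Rsq.2 (by omega))
      · exact h9 (mem_Rsq.2 (by omega))
  have hdis : ¬ DC χ (da (x0 - 1, qa)) (db (x0 - 1, qa)) := by
    intro hd
    have key := path_closed_dual (ω := χ)
      (U := {s : ℤ × ℤ | x0 - 1 ≤ s.1 ∧ -1 ≤ s.2 ∧ ((s.1 ≤ x0 ∧ s.2 ≤ qa) ∨
        (s.1 ≤ x1 + 1 ∧ s.2 ≤ 0))}) ?_ (odd_db _) (DC_symm hd) ?_
    · rw [c3] at key
      simp only [Set.mem_ofPred_eq] at key
      omega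
    · rintro ⟨p, q⟩ hb
      obtain ⟨h2, h3, h4⟩ := hcc _ hb
      simp only at h3 h4
      have h6 : ¬ (p = x0 - 1 ∧ q = qa) := fun h7 => h2 (by rw [h7.1, h7.2])
      rcases (by omega : (p + q) % 2 = 0 ∨ (p + q) % 2 = 1) with hpq | hpq
      · obtain ⟨-, -, k1, k2⟩ := corners_even p q hpq
        rw [k1, k2]
        simp only [Set.mem_ofPred_eq]
        omega
      · obtain ⟨-, -, k1, k2⟩ := corners_odd p q hpq
        rw [k1, k2]
        simp only [Set.mem_ofPred_eq]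
        omega
    · rw [c4]
      simp only [Set.mem_ofPred_eq]
      omega
  have main := bk_star' hQ hQ1 (good_sx (x0 := x0) (x1 := x1) (H := H) (A := A))
    hUD haD haη hχ hdis ?_
  · rw [c1, c2] at main
    exact main
  intro b hbU hba hb s hs hsU
  rw [c3, c4]
  obtain ⟨s3, s1, s2⟩ := do_iff.1 hs
  obtain ⟨e, he, -, e1, e2⟩ := mem_Od_iff.1 hsU
  have hsR := mem_Rsq.1 he
  have UL : ∀ t : ℤ × ℤ, x0 - 1 ≤ t.1 → t.1 ≤ x0 → qa + 1 ≤ t.2 → t.2 ≤ H + 1 →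
      (t.1 + t.2) % 2 = 1 → DC χ t (x0 - 1, qa + 1) := by
    intro t h1 h2 h3 h4 h5
    exact blockD (p0 := x0 - 1) (p1 := x0) (q0 := qa + 1) (q1 := H + 1)
      (fun p q k1 k2 k3 k4 => hcl p q k1 (by omega) (by omega) (by omega) (by omega) (by omega))
      (by omega) (by omega) ⟨h1, h2, h3, h4⟩ (by simp only; omega) (by simp only; omega)
  have TR : ∀ t : ℤ × ℤ, x0 - 1 ≤ t.1 → t.1 ≤ x1 + 1 → H ≤ t.2 → t.2 ≤ H + 1 →
      (t.1 + t.2) % 2 = 1 → DC χ t (x0 - 1, qa + 1) := by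
    intro t h1 h2 h3 h4 h5
    obtain ⟨z, hz, hz'⟩ := exists_odd (x0 - 1) H
    refine (blockD (p0 := x0 - 1) (p1 := x1 + 1) (q0 := H) (q1 := H + 1) (t := (z, H))
      (fun p q k1 k2 k3 k4 => hcl p q k1 (by omega) (by omega) (by omega) (by omega) (by omega))
      (by omega) (by omega) ⟨h1, h2, h3, h4⟩ (by simp only; omega) (by simp only; omega)).trans ?_
    exact UL (z, H) (by simp only; omega) (by simp only; omega) (by simp only; omega)
      (by simp only; omega) hz'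
  have UP : h < H → ∀ t : ℤ × ℤ, x0 ≤ t.1 → t.1 ≤ x1 → h ≤ t.2 → t.2 ≤ H →
      (t.1 + t.2) % 2 = 1 → DC χ t (x0 - 1, qa + 1) := by
    intro hlt t h1 h2 h3 h4 h5
    obtain ⟨z, hz, hz'⟩ := exists_odd h x0
    refine (blockD (p0 := x0) (p1 := x1) (q0 := h) (q1 := H) (t := (x0, z))
      (fun p q k1 k2 k3 k4 => hcl p q (by omega) (by omega) (by omega) (by omega) (by omega)
        (by omega))
      (by omega) (by omega) ⟨h1, h2, h3, h4⟩ (by simp only; omega) (by simp only; omega)).trans ?_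
    exact UL (x0, z) (by simp only; omega) (by simp only; omega) (by simp only; omega)
      (by simp only; omega) (by simp only; omega)
  have LL : ∀ t : ℤ × ℤ, x0 - 1 ≤ t.1 → t.1 ≤ x0 → -1 ≤ t.2 → t.2 ≤ qa →
      (t.1 + t.2) % 2 = 1 → DC χ t (x0, qa) := by
    intro t h1 h2 h3 h4 h5
    exact blockD (p0 := x0 - 1) (p1 := x0) (q0 := -1) (q1 := qa)
      (fun p q k1 k2 k3 k4 => hcl p q k1 (by omega) (by omega) (by omega) (by omega) (by omega))
      (by omega) (by omega) (by omega) (by simp only; omega) (by simp only; omega)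
  have BR : ∀ t : ℤ × ℤ, x0 - 1 ≤ t.1 → t.1 ≤ x1 + 1 → -1 ≤ t.2 → t.2 ≤ 0 →
      (t.1 + t.2) % 2 = 1 → DC χ t (x0, qa) := by
    intro t h1 h2 h3 h4 h5
    obtain ⟨z, hz, hz'⟩ := exists_odd (x0 - 1) (-1)
    refine (blockD (p0 := x0 - 1) (p1 := x1 + 1) (q0 := -1) (q1 := 0) (t := (z, -1))
      (fun p q k1 k2 k3 k4 => hcl p q k1 (by omega) (by omega) (by omega) (by omega) (by omega))
      (by omega) (by omega) ⟨h1, h2, h3, h4⟩ (by simp only; omega) (by simp only; omega)).trans ?_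
    exact LL (z, -1) (by simp only; omega) (by simp only; omega) (by simp only; omega)
      (by simp only; omega) hz'
  by_cases hs0 : s.1 = x0
  · by_cases hsq : s.2 ≤ qa
    · right
      exact LL s (by omega) (by omega) (by omega) (by omega) s3
    · left
      exact UL s (by omega) (by omega) (by omega) (by omega) s3
  · by_cases hb0 : b.2 < 0
    · right
      exact BR s (by omega) (by omega) (by omega) (by omega) s3
    · left
      have hbh : h ≤ b.2 := by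
        by_contra k3
        rcases hb with hb | hb
        · have := mem_Rsq.1 hb
          exact hbU (mem_Rsq.2 (by omega))
        · obtain ⟨k1, k2⟩ := sx_false.1 hb
          by_cases k5 : b.1 < x1
          · exact hbU (mem_Rsq.2 (by omega))
          · exact k2 (mem_Rsq.2 (by omega))
      rcases hh.lt_or_eq with hlt | heq
      · exact UP hlt s (by omega) (by omega) (by omega) (by omega) s3
      · exact TR s (by omega) (by omega) (by omega) (by omega) s3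

/-! ### In terms of `mm` -/

theorem sea_conn {ξ : Cfg} (hsea : ∀ v : ℤ × ℤ,
    ¬ (x0 - 1 ≤ v.1 ∧ v.1 ≤ x1 ∧ -1 ≤ v.2 ∧ v.2 ≤ H) → ξ v = true) {z w : ℤ × ℤ}
    (hz : Even (z.1 + z.2)) (hw : Even (w.1 + w.2))
    (hzo : z.1 ≤ x0 - 1 ∨ x1 < z.1 ∨ z.2 ≤ -1 ∨ H < z.2)
    (hwo : w.1 ≤ x0 - 1 ∨ x1 < w.1 ∨ w.2 ≤ -1 ∨ H < w.2) : PC ξ z w :=
  FKA.outside_conn (F := op ξ) (a := x0 - 1) (b := x1) (c := -1) (d := H)
    (fun v hv => hsea v (by omega)) hz hw hzo hwo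

/-- The root is the outside. -/
theorem sea_root (hQ : 0 < Q) (hpar : (x0 - 1 + qa) % 2 = 0) {ξ : Cfg} (hξ : Good ξ)
    (hD : D ⊆ Rsq x0 x1 0 H) (hsea : ∀ v : ℤ × ℤ,
      ¬ (x0 - 1 ≤ v.1 ∧ v.1 ≤ x1 ∧ -1 ≤ v.2 ∧ v.2 ≤ H) → ξ v = true) {W : Set (ℤ × ℤ)} {u : ℤ × ℤ}
    (hu : (u.1 + u.2) % 2 = 0) (hu' : x0 ≤ u.1 ∧ u.1 ≤ x1 ∧ 0 ≤ u.2 ∧ u.2 ≤ H)
    (h1 : ∀ x ∈ Ev D ∪ {u}, x ∈ W → ∃ z : ℤ × ℤ,
      (z.1 ≤ x0 - 1 ∨ x1 < z.1 ∨ z.2 ≤ -1 ∨ H < z.2) ∧ PC (cf D ξ ∅) x z)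
    (h2 : ∀ x ∈ Ev D ∪ {u}, ∀ b, b ∉ D → ξ b = true →
      (x0 - 1 ≤ b.1 ∧ b.1 ≤ x1 ∧ -1 ≤ b.2 ∧ b.2 ≤ H) → (x = pa b ∨ x = pb b) → x ∈ W) :
    Pr Q D ξ {ω | PC ω (x0 - 1, qa) u} = mm pa pb (fun _ => Q) (Q ^ 2) D W W {u} := by
  have hRx : ∀ x ∈ Ev D ∪ {u}, (x.1 + x.2) % 2 = 0 ∧ x0 ≤ x.1 ∧ x.1 ≤ x1 ∧ 0 ≤ x.2 ∧ x.2 ≤ H := by
    rintro x (hx | hx)
    · obtain ⟨b, hb, k1, k2, k3⟩ := mem_Ev_iff.1 hx
      have := mem_Rsq.1 (hD hb)
      omega
    · rw [Set.mem_singleton_iff] at hx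
      rw [hx]
      exact ⟨hu, hu'⟩
  have hsea' : ∀ v : ℤ × ℤ, ¬ (x0 - 1 ≤ v.1 ∧ v.1 ≤ x1 ∧ -1 ≤ v.2 ∧ v.2 ≤ H) →
      cf D ξ ∅ v = true := by
    intro v hv
    rw [FKA.cf_out fun h => hv (by have := mem_Rsq.1 (hD h); omega)]
    exact hsea v hv
  have hvev : Even (((x0 - 1, qa) : ℤ × ℤ).1 + ((x0 - 1, qa) : ℤ × ℤ).2) := Int.even_iff.2 hpar
  refine Pr_root hQ hξ (Int.even_iff.2 hu) hvev (fun h => ?_) ?_ ?_ (Or.inr fun h => ?_)
  · rw [h] at hu'
    simp only at hu'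
    omega
  · intro x hx hxW
    obtain ⟨z, hz, h3⟩ := h1 x hx hxW
    refine h3.trans (sea_conn hsea' (PC_even h3 (Int.even_iff.2 (hRx x hx).1)) hvev hz
      (Or.inl le_rfl))
  · intro x hx y hxy
    by_cases hne : x = y
    · exact Or.inl hne
    right
    obtain ⟨b, hb, hb'⟩ := first_step (Int.even_iff.2 (hRx x hx).1) hxy hne
    have hbD := cf_true_out hb
    rw [FKA.cf_out hbD] at hb
    by_cases hbox : x0 - 1 ≤ b.1 ∧ b.1 ≤ x1 ∧ -1 ≤ b.2 ∧ b.2 ≤ H
    · exact h2 x hx b hbD hb hbox hb'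
    · exfalso
      obtain ⟨k1, k2, k3⟩ := co_iff.1 hb'
      have := hRx x hx
      omega
  · obtain ⟨b, hb, k1, k2, k3⟩ := mem_Ev_iff.1 h
    have := mem_Rsq.1 (hD hb)
    simp only at k2
    omega

/-- The sites of the lower side are joined to the outside. -/
theorem bot_sea {ξ : Cfg} (hx : x0 < x1) (hA : ∀ i, x0 ≤ i → i < x1 → ξ (i, -1) = true)
    {x : ℤ × ℤ} (hxB : x ∈ sdY 0 0 x0 x1) : ∃ z : ℤ × ℤ, z.2 ≤ -1 ∧ PC ξ x z := by
  obtain ⟨i, j⟩ := x
  obtain ⟨h1, h2, h3, h4⟩ := hxB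
  simp only at h1 h2 h3 h4
  subst h1
  by_cases h5 : i < x1
  · obtain ⟨k1, k2, -, -⟩ := corners_odd i (-1) (by omega)
    have h6 := step_ab (hA i h2 h5)
    rw [k1, k2] at h6
    exact ⟨(i + 1, -1), le_rfl, ReflTransGen.single h6⟩
  · obtain ⟨k1, k2, -, -⟩ := corners_even (i - 1) (-1) (by omega)
    have h6 := step_ab (hA (i - 1) (by omega) (by omega))
    rw [k1, k2, sub_add_cancel] at h6
    exact ⟨(i - 1, -1), le_rfl, ReflTransGen.single h6.symm⟩

/-- The sites of the window are joined to the outside. -/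
theorem win_sea {ξ : Cfg} (hh : 0 < h) (hA : ∀ j, 0 ≤ j → j < h → ξ (x1, j) = true)
    {x : ℤ × ℤ} (hxB : x ∈ sdX 0 x1 0 h) : ∃ z : ℤ × ℤ, x1 < z.1 ∧ PC ξ x z := by
  obtain ⟨i, j⟩ := x
  obtain ⟨h1, h2, h3, h4⟩ := hxB
  simp only at h1 h2 h3 h4
  subst h1
  by_cases h5 : j < h
  · obtain ⟨k1, k2, -, -⟩ := corners_even i j (by omega)
    have h6 := step_ab (hA j h2 h5)
    rw [k1, k2] at h6
    exact ⟨(i + 1, j + 1), by simp, ReflTransGen.single h6⟩
  · obtain ⟨k1, k2, -, -⟩ := corners_odd i (j - 1) (by omega)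
    have h6 := step_ab (hA (j - 1) (by omega) (by omega))
    rw [k1, k2, sub_add_cancel] at h6
    exact ⟨(i + 1, j - 1), by simp, ReflTransGen.single h6⟩

/-- The root is the lower side, nice domain. -/
theorem root_bottom (hQ : 0 < Q) (hx : x0 < x1) (hh : h ≤ H) (hpar : (x0 - 1 + qa) % 2 = 0)
    (hq0 : 0 ≤ qa) (hqh : qa < h) :
    Pr Q (Rsq x0 x1 0 h) (cf (Rsq x0 x1 0 H) (sx x0 x1 H (Rsq x0 x1 (-1) 0)) ∅)
        {ω | PC ω (x0 - 1, qa) (x0, qa + 1)} =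
      mm pa pb (fun _ => Q) (Q ^ 2) (Rsq x0 x1 0 h) (sdY 0 0 x0 x1) (sdY 0 0 x0 x1)
        {(x0, qa + 1)} := by
  have hDD : Rsq x0 x1 0 h ⊆ Rsq x0 x1 0 H := by
    intro b hb
    have := mem_Rsq.1 hb
    exact mem_Rsq.2 (by omega)
  have hval : ∀ v, v ∉ Rsq x0 x1 0 H → cf (Rsq x0 x1 0 H) (sx x0 x1 H (Rsq x0 x1 (-1) 0)) ∅ v =
      sx x0 x1 H (Rsq x0 x1 (-1) 0) v := fun v hv => FKA.cf_out hv
  refine sea_root hQ hpar (good_cf _ good_sx _) hDD ?_ (by simp only; omega)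
    (by simp only; omega) ?_ ?_
  · intro v hv
    rw [hval v fun h1 => hv (by have := mem_Rsq.1 h1; omega)]
    exact sx_true.2 (Or.inl hv)
  · intro x _ hxW
    have hA : ∀ i, x0 ≤ i → i < x1 → cf (Rsq x0 x1 0 h)
        (cf (Rsq x0 x1 0 H) (sx x0 x1 H (Rsq x0 x1 (-1) 0)) ∅) ∅ (i, -1) = true := by
      intro i h1 h2
      rw [FKA.cf_out fun h3 => by have := mem_Rsq.1 h3; simp only at this; omega,
        hval _ fun h3 => by have := mem_Rsq.1 h3; simp only at this; omega]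
      exact sx_true.2 (Or.inr (mem_Rsq.2 (by simp only; omega)))
    obtain ⟨z, hz, h1⟩ := bot_sea hx hA hxW
    exact ⟨z, Or.inr (Or.inr (Or.inl hz)), h1⟩
  · intro x hx b hbD hb hbox hxb
    obtain ⟨k1, k2, k3⟩ := co_iff.1 hxb
    have hb2 : b ∉ Rsq x0 x1 0 H := fun h1 => by simp [cf, h1] at hb
    rw [hval b hb2, sx_true] at hb
    have h1 := mem_Rsq.1 (hb.resolve_left (fun h => h hbox))
    have h2 : 0 ≤ x.2 := by
      rcases hx with hx | hx
      · obtain ⟨c, hc, m1, m2, m3⟩ := mem_Ev_iff.1 hx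
        have := mem_Rsq.1 hc
        omega
      · rw [Set.mem_singleton_iff] at hx
        rw [hx]
        simp only
        omega
    exact ⟨by omega, by omega, by omega, k1⟩

/-- The root is the window, nice domain. -/
theorem root_window (hQ : 0 < Q) (hx : x0 < x1) {h' : ℤ} (hh' : h ≤ h') (hh : h' ≤ H)
    (hpar : (x0 - 1 + qa) % 2 = 0) (hq0 : 0 ≤ qa) (hqh : qa < h) :
    Pr Q (Rsq x0 x1 0 h') (cf (Rsq x0 x1 0 H) (sx x0 x1 H (Rsq x1 (x1 + 1) 0 h)) ∅)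
        {ω | PC ω (x0 - 1, qa) (x0, qa + 1)} =
      mm pa pb (fun _ => Q) (Q ^ 2) (Rsq x0 x1 0 h') (sdX 0 x1 0 h) (sdX 0 x1 0 h)
        {(x0, qa + 1)} := by
  have hDD : Rsq x0 x1 0 h' ⊆ Rsq x0 x1 0 H := by
    intro b hb
    have := mem_Rsq.1 hb
    exact mem_Rsq.2 (by omega)
  have hval : ∀ v, v ∉ Rsq x0 x1 0 H → cf (Rsq x0 x1 0 H) (sx x0 x1 H (Rsq x1 (x1 + 1) 0 h)) ∅ v =
      sx x0 x1 H (Rsq x1 (x1 + 1) 0 h) v := fun v hv => FKA.cf_out hv
  refine sea_root hQ hpar (good_cf _ good_sx _) hDD ?_ (by simp only; omega)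
    (by simp only; omega) ?_ ?_
  · intro v hv
    rw [hval v fun h1 => hv (by have := mem_Rsq.1 h1; omega)]
    exact sx_true.2 (Or.inl hv)
  · intro x _ hxW
    have hA : ∀ j, 0 ≤ j → j < h → cf (Rsq x0 x1 0 h')
        (cf (Rsq x0 x1 0 H) (sx x0 x1 H (Rsq x1 (x1 + 1) 0 h)) ∅) ∅ (x1, j) = true := by
      intro i h1 h2
      rw [FKA.cf_out fun h3 => by have := mem_Rsq.1 h3; simp only at this; omega,
        hval _ fun h3 => by have := mem_Rsq.1 h3; simp only at this; omega]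
      exact sx_true.2 (Or.inr (mem_Rsq.2 (by simp only; omega)))
    obtain ⟨z, hz, h1⟩ := win_sea (by omega) hA hxW
    exact ⟨z, Or.inr (Or.inl hz), h1⟩
  · intro x hx b hbD hb hbox hxb
    obtain ⟨k1, k2, k3⟩ := co_iff.1 hxb
    have hb2 : b ∉ Rsq x0 x1 0 H := fun h1 => by simp [cf, h1] at hb
    rw [hval b hb2, sx_true] at hb
    have h1 := mem_Rsq.1 (hb.resolve_left (fun h => h hbox))
    have h2 : x.1 ≤ x1 := by
      rcases hx with hx | hx
      · obtain ⟨c, hc, m1, m2, m3⟩ := mem_Ev_iff.1 hx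
        have := mem_Rsq.1 hc
        omega
      · rw [Set.mem_singleton_iff] at hx
        rw [hx]
        simp only
        omega
    exact ⟨by omega, by omega, by omega, k1⟩

theorem cf_empty_self (D : Finset (ℤ × ℤ)) (η : Cfg) (F : Cfg → ℝ) :
    Ex Q D (cf D η ∅) F = Ex Q D η F := by
  have h : ∀ S, cf D (cf D η ∅) S = cf D η S := by
    intro S
    funext v
    by_cases hv : v ∈ D <;> simp [cf, hv]
  unfold Ex Zq
  simp only [h]

/-- **The rectangle grows at the top**, the root is the lower side. -/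
theorem grow_top (hQ : 0 < Q) (hQ1 : Q ≤ 1) (hx : x0 < x1) (hh : h ≤ H) {y : ℤ} (hy : 0 < y)
    (hyh : y ≤ h) (hpar : (x0 + y) % 2 = 0) :
    mm pa pb (fun _ => Q) (Q ^ 2) (Rsq x0 x1 0 h) (sdY 0 0 x0 x1) (sdY 0 0 x0 x1) {(x0, y)} ≤
      mm pa pb (fun _ => Q) (Q ^ 2) (Rsq x0 x1 0 H) (sdY 0 0 x0 x1) (sdY 0 0 x0 x1)
        {(x0, y)} := by
  obtain ⟨qa, rfl⟩ : ∃ qa, y = qa + 1 := ⟨y - 1, by omega⟩
  have h1 := t2_bottom hQ hQ1 hx hh (qa := qa) (by omega) (by omega) (by omega)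
    (U := Rsq x0 x1 0 h) (G := ∅) subset_rfl (fun b hb => absurd hb (notMem_empty b))
    (fun b hb _ h1 => absurd hb h1) (fun b hb h1 => absurd hb h1)
  have e1 : Rsq x0 x1 0 h ∪ Rsq x0 x1 h H = Rsq x0 x1 0 H := by
    ext b
    rw [mem_union, mem_Rsq, mem_Rsq, mem_Rsq]
    omega
  rw [e1, union_empty] at h1
  rw [← root_bottom hQ hx hh (by omega) (by omega) (by omega),
    ← root_bottom hQ hx le_rfl (by omega) (by omega) (by omega)]
  refine h1.trans_eq ?_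
  unfold Pr
  rw [cf_empty_self]

/-- **The rectangle grows at the top**, the root is the lower part of the right side. -/
theorem grow_win (hQ : 0 < Q) (hQ1 : Q ≤ 1) (hx : x0 < x1) (hh : h ≤ H) {y : ℤ} (hy : 0 < y)
    (hyh : y ≤ h) (hpar : (x0 + y) % 2 = 0) :
    mm pa pb (fun _ => Q) (Q ^ 2) (Rsq x0 x1 0 h) (sdX 0 x1 0 h) (sdX 0 x1 0 h) {(x0, y)} ≤
      mm pa pb (fun _ => Q) (Q ^ 2) (Rsq x0 x1 0 H) (sdX 0 x1 0 h) (sdX 0 x1 0 h)
        {(x0, y)} := by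
  obtain ⟨qa, rfl⟩ : ∃ qa, y = qa + 1 := ⟨y - 1, by omega⟩
  have h1 := t2_window hQ hQ1 hx hh (qa := qa) (by omega) (by omega) (by omega)
  rw [← root_window hQ hx le_rfl hh (by omega) (by omega) (by omega),
    ← root_window hQ hx hh le_rfl (by omega) (by omega) (by omega)]
  refine h1.trans_eq ?_
  unfold Pr
  rw [cf_empty_self]

end sx

end Vale.Agent.P167.H997
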